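import Vale.Agent.P292.Defs
import Vale.Agent.P276.E.DerA

/-! P292 B/Bas (auxiliary names start with `bbas_`; see `notes/P292.md`).

`rel_basis`: `rel_iff_rk`, `ai_iff_rk`, `sub_cl_of_rk`. `der_glue`: `a` a basis of `A` over `Y`; it is
independent over `cl (Y ∪ B)` (rank count, `ai_iff_rk`); `D = D₂ + ∑ (D₁ a i - D₂ a i) • ∂ i` with
`exists_der_kill`; `der_kill` for `D - D₁`. `exists_grad`: `a` a basis of `range y` over `Y`,
`a i = y (e i)`, `D f = ∑ D (a i) * ∂ i f` (`der_kill`), `∂ i f ∈ cl` (`der_mem`), collect the terms with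
`Pi.single`. `rk_of_der`: the vectors `(D i (a j))_j` in `W ^ r` are independent, so `k ≤ r`
(`LinearIndependent.fintype_card_le_finrank`). `liouville`: `mem_cl_of_val`. -/

open Polynomial Set Matrix

noncomputable section

namespace Vale.Agent.P292

open Vale.Agent.P271 Vale.Agent.P276

variable {K : Type} [Field K] [Algebra ℂ K] {N n m : ℕ} {t : Fin (N + 1) → K} {S : Cn K N}
  {W : Type} [Field W] [Algebra ℂ W]

variable {A B Y : Set W} {τ : Type} [Fintype τ]

theorem bbas_sum {k : ℕ} (c : Fin k → W) (D : Fin k → Derivation ℂ W W) (x : W) :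
    (∑ i, c i • D i) x = ∑ i, c i * D i x := by
  have h : ∀ s : Finset (Fin k), (∑ i ∈ s, c i • D i) x = ∑ i ∈ s, c i * D i x := by
    intro s
    induction s using Finset.induction_on with
    | empty => simp
    | insert a s ha ih =>
      rw [Finset.sum_insert ha, Finset.sum_insert ha, Derivation.add_apply, ih,
        Derivation.smul_apply, smul_eq_mul]
  exact h _

theorem bbas_del {k : ℕ} (c : Fin k → W) (q : Fin k) :
    (∑ i, c i * (if i = q then 1 else 0 : W)) = c q := by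
  simp

theorem rel_basis (hY : Y.Finite) (hA : A.Finite) : ∃ (k : ℕ) (a : Fin k → W), (∀ i, a i ∈ A) ∧
    AlgebraicIndependent (cl Y) a ∧ rk (Y ∪ A) = rk Y + k ∧ A ⊆ cl (Y ∪ range a) := by
  have h0 : rk Y ≤ rk (Y ∪ A) := rk_mono (hY.union hA) (subset_union_left.trans (subset_cl _))
  obtain ⟨k, hk⟩ := Nat.exists_eq_add_of_le h0
  obtain ⟨a, ha, hi⟩ := (rel_iff_rk (k := k) hY hA).2 hk.ge
  refine ⟨k, a, ha, hi, hk, ?_⟩
  have h1 := (ai_iff_rk hY a).1 hi
  rw [Fintype.card_fin] at h1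
  refine sub_cl_of_rk (hY.union (finite_range a)) hA ?_
  have h2 : rk (Y ∪ range a ∪ A) ≤ rk (Y ∪ A) := by
    refine rk_mono (hY.union hA) (Subset.trans ?_ (subset_cl _))
    rintro x ((hx | ⟨i, rfl⟩) | hx)
    · exact Or.inl hx
    · exact Or.inr (ha i)
    · exact Or.inr hx
  omega

theorem exists_grad (hY : Y.Finite) (y : τ → W) {f : W} (hf : f ∈ cl (Y ∪ range y)) :
    ∃ η : τ → W, (∀ j, η j ∈ cl (Y ∪ range y)) ∧ ∀ D : Derivation ℂ W W,
      (∀ a ∈ cl Y, D a = 0) → D f = η ⬝ᵥ fun j => D (y j) := by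
  classical
  obtain ⟨k, a, ha, hi, -, hs⟩ := rel_basis hY (finite_range y)
  obtain ⟨P, hP0, hP1⟩ := exists_der_kill hi
  choose e he using ha
  have h1 : (cl (Y ∪ range y) : Set W) ⊆ cl (Y ∪ range a) := by
    refine cl_le ?_
    rintro x (hx | hx)
    · exact subset_cl _ (Or.inl hx)
    · exact hs hx
  have h2 : (cl (Y ∪ range a) : Set W) ⊆ cl (Y ∪ range y) := by
    refine cl_mono ?_
    rintro x (hx | ⟨i, rfl⟩)
    · exact Or.inl hx
    · exact Or.inr ⟨e i, he i⟩
  have h3 : ∀ i, P i f ∈ cl (Y ∪ range y) := by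
    intro i
    refine h2 (der_mem (A := Y ∪ range a) ?_ f (h1 hf))
    rintro x (hx | ⟨q, rfl⟩)
    · rw [hP0 i x (subset_cl _ hx)]
      exact zero_mem _
    · rw [hP1]
      split_ifs
      · exact one_mem _
      · exact zero_mem _
  refine ⟨fun j => ∑ i, if e i = j then P i f else 0, fun j => ?_, fun D hD => ?_⟩
  · refine sum_mem fun i _ => ?_
    split_ifs
    · exact h3 i
    · exact zero_mem _
  · have h4 : ∀ x ∈ Y ∪ range a, (D - ∑ i, D (a i) • P i) x = 0 := by
      rintro x (hx | ⟨q, rfl⟩)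
      · rw [Derivation.sub_apply, bbas_sum, hD x (subset_cl _ hx)]
        simp [fun i => hP0 i x (subset_cl _ hx)]
      · rw [Derivation.sub_apply, bbas_sum]
        simp only [hP1]
        rw [bbas_del, sub_self]
    have h5 := der_kill h4 f (h1 hf)
    rw [Derivation.sub_apply, bbas_sum, sub_eq_zero] at h5
    rw [h5]
    simp only [dotProduct, Finset.sum_mul]
    rw [Finset.sum_comm]
    refine Finset.sum_congr rfl fun i _ => ?_
    rw [Finset.sum_eq_single (e i)]
    · rw [if_pos rfl, he, mul_comm]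
    · intro j _ hj
      rw [if_neg (Ne.symm hj), zero_mul]
    · intro hj
      exact absurd (Finset.mem_univ _) hj

theorem der_glue (hY : Y.Finite) (hA : A.Finite) (hB : B.Finite)
    (h : rk (Y ∪ A) + rk (Y ∪ B) ≤ rk (Y ∪ A ∪ B) + rk Y) (D₁ D₂ : Derivation ℂ W W)
    (h1 : ∀ a ∈ cl Y, D₁ a = D₂ a) : ∃ D : Derivation ℂ W W,
      (∀ a ∈ cl (Y ∪ A), D a = D₁ a) ∧ ∀ a ∈ cl (Y ∪ B), D a = D₂ a := by
  classical
  obtain ⟨k, a, ha, -, hk, hs⟩ := rel_basis hY hA
  have h2 : rk (Y ∪ A ∪ B) ≤ rk (Y ∪ B ∪ range a) := by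
    refine rk_mono ((hY.union hB).union (finite_range a)) ?_
    rintro x ((hx | hx) | hx)
    · exact subset_cl _ (Or.inl (Or.inl hx))
    · exact cl_mono (union_subset_union_left _ subset_union_left) (hs hx)
    · exact subset_cl _ (Or.inl (Or.inr hx))
  have hi : AlgebraicIndependent (cl (Y ∪ B)) a := by
    refine (ai_iff_rk (hY.union hB) a).2 ?_
    rw [Fintype.card_fin]
    omega
  obtain ⟨P, hP0, hP1⟩ := exists_der_kill hi
  have h3 : ∀ x ∈ cl (Y ∪ B), (D₂ + ∑ i, (D₁ (a i) - D₂ (a i)) • P i) x = D₂ x := by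
    intro x hx
    rw [Derivation.add_apply, bbas_sum]
    simp [fun i => hP0 i x hx]
  refine ⟨D₂ + ∑ i, (D₁ (a i) - D₂ (a i)) • P i, fun x hx => ?_, h3⟩
  have h4 : ∀ x ∈ Y ∪ range a, (D₂ + (∑ i, (D₁ (a i) - D₂ (a i)) • P i) - D₁) x = 0 := by
    rintro x (hx | ⟨q, rfl⟩)
    · rw [Derivation.sub_apply, h3 x (subset_cl _ (Or.inl hx)), h1 x (subset_cl _ hx), sub_self]
    · rw [Derivation.sub_apply, Derivation.add_apply, bbas_sum]
      simp only [hP1]
      rw [bbas_del]
      ring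
  have h5 : (cl (Y ∪ A) : Set W) ⊆ cl (Y ∪ range a) := by
    refine cl_le ?_
    rintro x (hx | hx)
    · exact subset_cl _ (Or.inl hx)
    · exact hs hx
  have h6 := der_kill h4 x (h5 hx)
  rwa [Derivation.sub_apply, sub_eq_zero] at h6

theorem rk_of_der (hA : A.Finite) {y : τ → W} {k : ℕ} (D : Fin k → Derivation ℂ W W)
    (h : ∀ i, ∀ a ∈ cl A, D i a = 0) (h1 : LinearIndependent W fun i j => D i (y j)) :
    rk A + k ≤ rk (A ∪ range y) := by
  obtain ⟨r, a, -, -, hk, hs⟩ := rel_basis hA (finite_range y)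
  have h2 : LinearIndependent W fun (i : Fin k) (j : Fin r) => D i (a j) := by
    rw [Fintype.linearIndependent_iff] at h1 ⊢
    intro c hc
    refine h1 c ?_
    have h3 : ∀ x ∈ A ∪ range a, (∑ i, c i • D i) x = 0 := by
      rintro x (hx | ⟨q, rfl⟩)
      · rw [bbas_sum]
        simp [fun i => h i x (subset_cl _ hx)]
      · rw [bbas_sum]
        have h4 := congrFun hc q
        simpa [Finset.sum_apply] using h4
    funext j
    have h5 := der_kill h3 (y j) (hs ⟨j, rfl⟩)
    rw [bbas_sum] at h5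
    simpa [Finset.sum_apply] using h5
  have h6 := h2.fintype_card_le_finrank
  rw [Fintype.card_fin, Module.finrank_fin_fun] at h6
  omega

/-- Liouville: integral over the polynomial ring and bounded at infinity means constant. -/
theorem liouville {σ y : W} (h : ∀ O, Ov A O → σ ∈ O → y ∈ O)
    (h' : ∀ O, Ov A O → σ ∉ O → y ∈ O) : y ∈ cl A := by
  refine mem_cl_of_val fun O hO => ?_
  by_cases hσ : σ ∈ O
  · exact h O hO hσ
  · exact h' O hO hσ

end Vale.Agent.P292
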