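import Vale.Agent.P292.B.Emb
import Vale.Agent.P292.B.Bas
import Vale.Agent.P276.U.Amal
import Vale.Agent.P276R.F.Sp

/-! P292 B/Aut (auxiliary names start with `baut_`; see `notes/P292.md`).

`aut_ext`: `aut_emb` with `R = MvPolynomial τ (cl B)`, `φ = aeval x`, `ψ = aeval x'` (restrict scalars),
`T = B ∪ range x`. `aut_move`: `rel_basis`, `exists_fresh_fam` over `Y ∪ B`, both families are
independent over `cl Y`, `aut_ext`; `rk_image`, `ai_iff_rk`, `rk_mono`. `back`: a finite transcendence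
basis of `cl T` (see `fre_a_basis`, `emb_big` in `P276/E/FreshA.lean`, or `rel_basis` with `Y = ∅`),
`hW`, `amal_lift`. -/

open Polynomial Set Matrix

noncomputable section

namespace Vale.Agent.P292

open Vale.Agent.P271 Vale.Agent.P276

variable {K : Type} [Field K] [Algebra ℂ K] {N n m : ℕ} {t : Fin (N + 1) → K} {S : Cn K N}
  {W : Type} [Field W] [Algebra ℂ W]

variable {A B Y : Set W} {τ : Type} [Fintype τ]

theorem baut_basis {L V : Type} [Field L] [Field V] [Algebra L V] (M : IntermediateField L V)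
    {s : Set V} (hs : s.Finite) (h1 : s ⊆ M) (h2 : ∀ x ∈ M, IsAlgebraic (Algebra.adjoin L s) x) :
    ∃ T : Set M, T.Finite ∧ IsTranscendenceBasis L ((↑) : T → M) := by
  have e : Algebra.adjoin L s = (Algebra.adjoin L (M.val ⁻¹' s)).map M.val := by
    rw [AlgHom.map_adjoin, image_preimage_eq_of_subset fun x hx => ⟨⟨x, h1 hx⟩, rfl⟩]
  rw [e] at h2
  have : Algebra.IsAlgebraic (Algebra.adjoin L (M.val ⁻¹' s)) M := ⟨fun x =>
    IsAlgebraic.of_ringHom_of_comp_eq (M.val.subalgebraMap _) M.val (h2 x x.2)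
      (M.val.subalgebraMap_surjective _) Subtype.val_injective rfl⟩
  obtain ⟨T, hT, hb⟩ := exists_isTranscendenceBasis_subset (R := L) (M.val ⁻¹' s)
  exact ⟨T, (hs.preimage Subtype.val_injective.injOn).subset hT, hb⟩

theorem baut_sp {L V : Type} [Field L] [Field V] [Algebra L V] {σ : Type} {x : σ → V}
    (h : AlgebraicIndependent L x) (y : σ → V) : Sp L x y := fun p hp => by
  rw [algebraicIndependent_iff.1 h p hp, map_zero]

theorem aut_ext [IsAlgClosed W] (hW : Big W) (hB : B.Finite) {x x' : τ → W} (h : Sp (cl B) x x')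
    (h' : Sp (cl B) x' x) : ∃ θ : W ≃ₐ[ℂ] W, Fx (cl B) θ ∧ ∀ i, θ (x i) = x' i := by
  obtain ⟨θ, hθ⟩ := aut_emb ((MvPolynomial.aeval (R := cl B) x).restrictScalars ℂ)
    ((MvPolynomial.aeval (R := cl B) x').restrictScalars ℂ) (fun a => ⟨h a, h' a⟩)
    (hB.union (finite_range x)) fun a => by
      rw [AlgHom.restrictScalars_apply]
      induction a using MvPolynomial.induction_on with
      | C c =>
        rw [MvPolynomial.aeval_C]
        exact cl_mono subset_union_left c.2
      | add p q hp hq =>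
        rw [map_add]
        exact add_mem hp hq
      | mul_X p i hp =>
        rw [map_mul, MvPolynomial.aeval_X]
        exact mul_mem hp (subset_cl _ (Or.inr ⟨i, rfl⟩))
  simp only [AlgHom.restrictScalars_apply] at hθ
  refine ⟨θ, fun a ha => ?_, fun i => ?_⟩
  · have h1 := hθ (MvPolynomial.C ⟨a, ha⟩)
    rwa [MvPolynomial.aeval_C, MvPolynomial.aeval_C] at h1
  · have h1 := hθ (MvPolynomial.X i)
    rwa [MvPolynomial.aeval_X, MvPolynomial.aeval_X] at h1

/-- A finite set can be moved over `Y` to be independent of `B`. -/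
theorem aut_move [IsAlgClosed W] (hW : Big W) (hY : Y.Finite) (hA : A.Finite) (hB : B.Finite) :
    ∃ θ : W ≃ₐ[ℂ] W, Fx (cl Y) θ ∧
      rk (Y ∪ θ '' A) + rk (Y ∪ B) ≤ rk (Y ∪ θ '' A ∪ B) + rk Y := by
  obtain ⟨k, a, h1, h2, h3, -⟩ := rel_basis hY hA
  obtain ⟨u, hu⟩ := exists_fresh_fam hW (hY.union hB) (Fin k)
  obtain ⟨θ, h4, h5⟩ := aut_ext hW hY (baut_sp h2 u)
    (baut_sp (ai_mono hu (subset_union_left.trans (subset_cl _))) a)
  refine ⟨θ, h4, ?_⟩
  have h6 : θ '' Y = Y := by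
    rw [image_congr fun y hy => h4 y (subset_cl Y hy), image_id']
  have h7 : rk (θ '' (Y ∪ A)) = rk (Y ∪ A) := rk_image (θ : W →ₐ[ℂ] W) _
  rw [image_union, h6] at h7
  have h8 := (ai_iff_rk (hY.union hB) u).1 hu
  have h9 : rk (Y ∪ B ∪ range u) ≤ rk (Y ∪ θ '' A ∪ B) := by
    refine rk_mono ((hY.union (hA.image θ)).union hB) (Subset.trans ?_ (subset_cl _))
    rintro y ((hy | hy) | ⟨i, rfl⟩)
    · exact Or.inl (Or.inl hy)
    · exact Or.inr hy
    · exact Or.inl (Or.inr ⟨a i, h1 i, h5 i⟩)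
  rw [Fintype.card_fin] at h8
  omega

/-- Data over a residue field can be moved back into the big field. -/
theorem back [IsAlgClosed W] (hW : Big W) {V : Type} [Field V] [Algebra ℂ V] [IsAlgClosed V]
    {T : Set V} (hT : T.Finite) : Nonempty (cl T →ₐ[ℂ] W) := by
  obtain ⟨U, hU, hb⟩ := baut_basis (cl T) hT (subset_cl T) fun x hx => mem_cl.1 hx
  have := hU.fintype
  obtain ⟨y, -, hy⟩ := hW (Fintype.card U)
  obtain ⟨f, -⟩ := amal_lift hb (hy.comp _ (Fintype.equivFin U).injective)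
  exact ⟨f⟩

end Vale.Agent.P292
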