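import Vale.Agent.P292.B.Om

/-! P292 B/Clo (auxiliary names start with `bclo_`; see `notes/P292.md`).

Write `D k z = pm ξ k` (`Cn.On.der`, `tan_iff`); `om (D₂ z) (D₃ z) = D₂ z ⬝ᵥ ξ₃` and
`om (⁅D₁, D₂⁆ z) (D₃ z) = (D₁ D₂ z - D₂ D₁ z) ⬝ᵥ ξ₃` (`om_pm`). The difference of the two sides is the
cyclic sum of `D₂ z ⬝ᵥ D₁ ξ₃ + D₂ (D₁ z) ⬝ᵥ ξ₃`; `D₂ (D₁ z) = (D₂ pm) ξ₁ + pm (D₂ ξ₁)` (`der_pm`), the
terms with `D ξ` cancel by `pm_dot`, and `(D₂ pm) i j = - ∑ k, ξ₂ k * J k i j` with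
`J k i j = ∑ l, pm k l * ∂ l (p i j)` (`der_pm'`); the rest is `hS.jac` (`jac3`). -/

open Polynomial Set Matrix

set_option linter.unusedSectionVars false

noncomputable section

namespace Vale.Agent.P292

open Vale.Agent.P271 Vale.Agent.P276

variable {K : Type} [Field K] [Algebra ℂ K] {N n m : ℕ} {t : Fin (N + 1) → K} {S : Cn K N}
  {W : Type} [Field W] [Algebra ℂ W]

variable {W' κ : Type} [Field W'] [Algebra ℂ W'] [Field κ] [Algebra ℂ κ] {z v v' δ : Fin S.M → W}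
  {O : ValuationSubring W}

theorem bcl_chain {R τ : Type} [CommRing R] [Algebra ℂ R] [Fintype τ] (D : Derivation ℂ R R)
    (y : τ → R) (P : MvPolynomial τ ℂ) :
    D (MvPolynomial.aeval y P) = ∑ j, MvPolynomial.aeval y (MvPolynomial.pderiv j P) * D (y j) := by
  classical
  induction P using MvPolynomial.induction_on with
  | C a => simp
  | add p q hp hq => simp only [map_add, hp, hq, add_mul, Finset.sum_add_distrib]
  | mul_X p i hp =>
    simp only [map_mul, MvPolynomial.aeval_X, Derivation.leibniz, smul_eq_mul, hp, map_add, add_mul,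
      Finset.sum_add_distrib, MvPolynomial.pderiv_X, Pi.single_apply, apply_ite, map_zero,
      mul_one, mul_zero, ite_mul, zero_mul, Finset.sum_ite_eq, Finset.mem_univ, if_true,
      Finset.mul_sum, mul_assoc]

theorem bcl_dot {τ : Type} [Fintype τ] (D : Derivation ℂ W W) (u v : τ → W) :
    D (u ⬝ᵥ v) = (fun i => D (u i)) ⬝ᵥ v + u ⬝ᵥ fun i => D (v i) := by
  simp only [dotProduct, map_sum, Derivation.leibniz, smul_eq_mul, ← Finset.sum_add_distrib]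
  exact Finset.sum_congr rfl fun i _ => by ring

theorem bcl_alt (hS : S.Ok t n m) (z : Fin S.M → W) (i j : Fin S.M) :
    S.pm z j i = - S.pm z i j := by
  simp only [Cn.pm, of_apply]
  rw [hS.alt i j, map_neg]

theorem bcl_skew (hS : S.Ok t n m) (z a b : Fin S.M → W) :
    (S.pm z *ᵥ a) ⬝ᵥ b = - ((S.pm z *ᵥ b) ⬝ᵥ a) := by
  simp only [mulVec, dotProduct, Finset.sum_mul, ← Finset.sum_neg_distrib]
  rw [Finset.sum_comm]
  refine Finset.sum_congr rfl fun i _ => Finset.sum_congr rfl fun j _ => ?_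
  rw [bcl_alt hS z i j]
  ring

/-- The derivative of the Poisson matrix in the direction `v`, as a bilinear form. -/
def bcl_G (S : Cn K N) (z v b c : Fin S.M → W) : W :=
  ∑ i, ∑ j, (∑ l, MvPolynomial.aeval z (MvPolynomial.pderiv l (S.p i j)) * v l) * c j * b i

theorem bcl_der (hS : S.Ok t n m) (D : Derivation ℂ W W) (z ξ η : Fin S.M → W) :
    (fun i => D ((S.pm z *ᵥ ξ) i)) ⬝ᵥ η =
      bcl_G S z (fun l => D (z l)) η ξ - (S.pm z *ᵥ η) ⬝ᵥ fun i => D (ξ i) := by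
  rw [bcl_skew hS, sub_neg_eq_add]
  simp only [bcl_G, mulVec, dotProduct, map_sum, Derivation.leibniz, smul_eq_mul, Finset.sum_mul,
    ← Finset.sum_add_distrib, Cn.pm, of_apply, bcl_chain]
  refine Finset.sum_congr rfl fun i _ => Finset.sum_congr rfl fun j _ => ?_
  simp only [← Finset.sum_mul]
  ring

theorem bcl_anti (hS : S.Ok t n m) (z v b c : Fin S.M → W) :
    bcl_G S z v b c = - bcl_G S z v c b := by
  simp only [bcl_G, ← Finset.sum_neg_distrib]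
  rw [Finset.sum_comm]
  refine Finset.sum_congr rfl fun i _ => Finset.sum_congr rfl fun j _ => ?_
  simp only [hS.alt i j, map_neg, neg_mul, Finset.sum_neg_distrib]
  ring

theorem bcl_pm (hS : S.Ok t n m) (z a b c : Fin S.M → W) : bcl_G S z (S.pm z *ᵥ a) b c =
    ∑ k, ∑ i, ∑ j, - ((∑ l, S.pm z k l * MvPolynomial.aeval z (MvPolynomial.pderiv l (S.p i j))) *
      (a k * b i * c j)) := by
  rw [← Finset.sum_comm_cycle]
  refine Finset.sum_congr rfl fun i _ => Finset.sum_congr rfl fun j _ => ?_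
  simp only [mulVec, dotProduct, Finset.sum_mul, Finset.mul_sum, ← Finset.sum_neg_distrib]
  rw [Finset.sum_comm]
  refine Finset.sum_congr rfl fun k _ => Finset.sum_congr rfl fun l _ => ?_
  rw [bcl_alt hS z k l]
  ring

theorem bcl_cyc (hS : S.Ok t n m) (h : S.On z) (a b c : Fin S.M → W) :
    bcl_G S z (S.pm z *ᵥ a) b c + bcl_G S z (S.pm z *ᵥ b) c a +
      bcl_G S z (S.pm z *ᵥ c) a b = 0 := by
  rw [bcl_pm hS, bcl_pm hS, bcl_pm hS z c, Finset.sum_comm_cycle (f := fun k i j => -((∑ l,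
    S.pm z k l * MvPolynomial.aeval z (MvPolynomial.pderiv l (S.p i j))) * (b k * c i * a j))),
    ← Finset.sum_comm_cycle (f := fun i j k => -((∑ l,
    S.pm z k l * MvPolynomial.aeval z (MvPolynomial.pderiv l (S.p i j))) * (c k * a i * b j)))]
  simp only [← Finset.sum_add_distrib]
  refine Finset.sum_eq_zero fun i _ => Finset.sum_eq_zero fun j _ =>
    Finset.sum_eq_zero fun k _ => ?_
  have h1 := hS.jac W z h i j k
  simp only [Finset.sum_add_distrib] at h1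
  linear_combination (-(a i * b j * c k)) * h1

theorem bcl_br {D₁ D₂ : Derivation ℂ W W} {ξ₁ ξ₂ : Fin S.M → W}
    (h1 : S.pm z *ᵥ ξ₁ = fun i => D₁ (z i)) (h2 : S.pm z *ᵥ ξ₂ = fun i => D₂ (z i))
    (η : Fin S.M → W) : (fun i => ⁅D₁, D₂⁆ (z i)) ⬝ᵥ η =
      (fun i => D₁ ((S.pm z *ᵥ ξ₂) i)) ⬝ᵥ η - (fun i => D₂ ((S.pm z *ᵥ ξ₁) i)) ⬝ᵥ η := by
  rw [← sub_dotProduct, h1, h2]
  rfl

/-- The form is closed. -/
theorem closed (hS : S.Ok t n m) (h : S.On z) (h0 : z ≠ 0) (D₁ D₂ D₃ : Derivation ℂ W W) :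
    D₁ (S.om z (fun i => D₂ (z i)) fun i => D₃ (z i)) +
      D₂ (S.om z (fun i => D₃ (z i)) fun i => D₁ (z i)) +
      D₃ (S.om z (fun i => D₁ (z i)) fun i => D₂ (z i)) =
    S.om z (fun i => ⁅D₁, D₂⁆ (z i)) (fun i => D₃ (z i)) +
      S.om z (fun i => ⁅D₂, D₃⁆ (z i)) (fun i => D₁ (z i)) +
      S.om z (fun i => ⁅D₃, D₁⁆ (z i)) fun i => D₂ (z i) := by
  obtain ⟨ξ₁, h1⟩ := (tan_iff hS h h0).1 (h.der D₁)
  obtain ⟨ξ₂, h2⟩ := (tan_iff hS h h0).1 (h.der D₂)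
  obtain ⟨ξ₃, h3⟩ := (tan_iff hS h h0).1 (h.der D₃)
  have e : ∀ (D D' : Derivation ℂ W W) (ξ : Fin S.M → W), S.pm z *ᵥ ξ = (fun i => D' (z i)) →
      S.om z (fun i => D (z i)) (fun i => D' (z i)) = (fun i => D (z i)) ⬝ᵥ ξ := fun D D' ξ e =>
    e ▸ om_pm hS h h0 (h.der D) ξ
  have c := bcl_cyc hS h ξ₂ ξ₃ ξ₁
  rw [e _ _ _ h3, e _ _ _ h1, e _ _ _ h2, e _ _ _ h3, e _ _ _ h1, e _ _ _ h2, bcl_br h1 h2,
    bcl_br h2 h3, bcl_br h3 h1, bcl_dot, bcl_dot, bcl_dot, bcl_der hS D₂ z ξ₁,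
    bcl_der hS D₃ z ξ₂, bcl_der hS D₁ z ξ₃]
  simp only [h1, h2, h3] at c ⊢
  linear_combination c

end Vale.Agent.P292
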