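import Vale.Agent.P292.B.Gen
import Vale.Agent.P292.B.Bas

/-! P292 B/Dv (auxiliary names start with `bdv_`; see `notes/P292.md`).

`dv_spec`: `li_der` gives `2 n + 2` derivations killing `cl Y` with independent values in
`S.TanS x` (`Cn.On.der`), which has this dimension (`hS.dim`), so `δ = ∑ c i • D i x`. `dv_eq`:
`der_kill` for the difference. `vec_grad`: `exists_grad`, `hS.tanp`. Then `vec_tan` (`tan_pm`,
`egn_mem`), `der_eq_om` (`om_pm`), `der_eq_dot` (`pm_dot`). `dv_map`: conjugate the derivation by `θ`,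
`dv_eq`, `mem_cl_map`. -/

open Polynomial Set Matrix

noncomputable section

namespace Vale.Agent.P292

open Vale.Agent.P271 Vale.Agent.P276

variable {K : Type} [Field K] [Algebra ℂ K] {N n m : ℕ} {t : Fin (N + 1) → K} {S : Cn K N}
  {W : Type} [Field W] [Algebra ℂ W]

variable {Y Y' : Set W} {x δ : Fin S.M → W} {f g h : W} {k l : ℕ}

theorem bdv_sum {k : ℕ} (c : Fin k → W) (D : Fin k → Derivation ℂ W W) (a : W) :
    (∑ i, c i • D i) a = ∑ i, c i * D i a := by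
  have h1 := congrFun (map_sum Derivation.coeFnAddMonoidHom (fun i => c i • D i) Finset.univ) a
  rw [Finset.sum_apply] at h1
  exact h1

theorem dv_spec (hS : S.Ok t n m) (hx : S.GenO n Y x) (h : S.Tan x δ) :
    (∀ a ∈ cl Y, S.dv Y x δ a = 0) ∧ ∀ j, S.dv Y x δ (x j) = δ j := by
  obtain ⟨D, h1, h2⟩ := li_der hx.1 (y := x) (k := 2 * n + 2) hx.2.2.ge
  have h3 : Submodule.span W (range fun i j => D i (x j)) = S.TanS x :=
    Submodule.eq_of_le_of_finrank_le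
      (Submodule.span_le.2 (range_subset_iff.2 fun i => hx.2.1.der (D i)))
      (by rw [hS.dim W x hx.2.1 hx.ne, finrank_span_eq_card h2, Fintype.card_fin])
  obtain ⟨c, hc⟩ := (Submodule.mem_span_range_iff_exists_fun W).1 (h3.ge h)
  have h4 : ∃ D : Derivation ℂ W W, (∀ a ∈ cl Y, D a = 0) ∧ ∀ j, D (x j) = δ j := by
    refine ⟨∑ i, c i • D i, fun a ha => ?_, fun j => ?_⟩
    · rw [bdv_sum]
      exact Finset.sum_eq_zero fun i _ => by rw [h1 i a ha, mul_zero]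
    · rw [bdv_sum, ← hc, Finset.sum_apply]
      rfl
  rw [Cn.dv, dif_pos h4]
  exact h4.choose_spec

theorem dv_eq (hS : S.Ok t n m) (hx : S.GenO n Y x) {D : Derivation ℂ W W}
    (h : ∀ a ∈ cl Y, D a = 0) (hf : f ∈ cl (Y ∪ range x)) :
    D f = S.dv Y x (fun j => D (x j)) f := by
  obtain ⟨h1, h2⟩ := dv_spec hS hx (hx.2.1.der D)
  refine sub_eq_zero.1 (der_kill (D := D - S.dv Y x fun j => D (x j)) ?_ f hf)
  rintro a (ha | ⟨j, rfl⟩)
  · rw [Derivation.sub_apply, h a (subset_cl _ ha), h1 a (subset_cl _ ha), sub_self]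
  · rw [Derivation.sub_apply, h2, sub_self]

theorem vec_grad (hS : S.Ok t n m) (hx : S.GenO n Y x) (hf : f ∈ cl (Y ∪ range x)) :
    ∃ η : Fin S.M → W, (∀ j, η j ∈ cl (Y ∪ range x)) ∧ S.vec Y x f = S.pm x *ᵥ η ∧
      ∀ D : Derivation ℂ W W, (∀ a ∈ cl Y, D a = 0) → D f = η ⬝ᵥ fun j => D (x j) := by
  obtain ⟨η, h1, h2⟩ := exists_grad hx.1 x hf
  refine ⟨η, h1, funext fun i => ?_, h2⟩
  obtain ⟨h3, h4⟩ := dv_spec hS hx (hS.tanp W x hx.2.1 i)
  rw [Cn.vec, h2 _ h3, funext h4, dotProduct_comm]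
  rfl

theorem bdv_dot {A : Set W} {u v : Fin S.M → W} (hu : ∀ i, u i ∈ cl A) (hv : ∀ i, v i ∈ cl A) :
    u ⬝ᵥ v ∈ cl A := (cl A).sum_mem fun i _ => (cl A).mul_mem (hu i) (hv i)

theorem vec_tan (hS : S.Ok t n m) (hx : S.GenO n Y x) (hf : f ∈ cl (Y ∪ range x)) :
    S.Tan x (S.vec Y x f) ∧ ∀ i, S.vec Y x f i ∈ cl (Y ∪ range x) := by
  obtain ⟨η, h1, h2, -⟩ := vec_grad hS hx hf
  rw [h2]
  exact ⟨tan_pm hS hx.2.1 η, fun i => bdv_dot (u := S.pm x i)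
    (fun j => egn_mem (subset_union_right.trans (subset_cl _)) (S.p i j)) h1⟩

theorem der_eq_om (hS : S.Ok t n m) (hx : S.GenO n Y x) {D : Derivation ℂ W W}
    (h : ∀ a ∈ cl Y, D a = 0) (hf : f ∈ cl (Y ∪ range x)) :
    D f = S.om x (fun j => D (x j)) (S.vec Y x f) := by
  obtain ⟨η, -, h2, h3⟩ := vec_grad hS hx hf
  rw [h2, om_pm hS hx.2.1 hx.ne (hx.2.1.der D), h3 D h, dotProduct_comm]

theorem der_eq_dot (hS : S.Ok t n m) (hx : S.GenO n Y x) {D : Derivation ℂ W W}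
    (h : ∀ a ∈ cl Y, D a = 0) (hf : f ∈ cl (Y ∪ range x)) {ξ : Fin S.M → W}
    (hξ : S.pm x *ᵥ ξ = fun j => D (x j)) : D f = - (ξ ⬝ᵥ S.vec Y x f) := by
  obtain ⟨η, -, h2, h3⟩ := vec_grad hS hx hf
  rw [h2, h3 D h, ← hξ, dotProduct_comm, pm_dot hS]

theorem pb_om (hS : S.Ok t n m) (hx : S.GenO n Y x) (hf : f ∈ cl (Y ∪ range x))
    (hg : g ∈ cl (Y ∪ range x)) :
    S.pb Y x f g = S.om x (S.vec Y x f) (S.vec Y x g) ∧ S.pb Y x f g ∈ cl (Y ∪ range x) := by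
  obtain ⟨h1, h2⟩ := vec_tan hS hx hf
  obtain ⟨h3, h4⟩ := dv_spec hS hx h1
  obtain ⟨η, h5, -, h6⟩ := vec_grad hS hx hg
  constructor
  · rw [Cn.pb, der_eq_om hS hx h3 hg, funext h4]
  · rw [Cn.pb, h6 _ h3, funext h4]
    exact bdv_dot h5 h2

theorem vec_lin (hS : S.Ok t n m) (hx : S.GenO n Y x) {a b : W} (ha : a ∈ cl Y) (hb : b ∈ cl Y)
    (f g : W) : S.vec Y x (a * f + b * g) = a • S.vec Y x f + b • S.vec Y x g := by
  funext i
  obtain ⟨h3, -⟩ := dv_spec hS hx (hS.tanp W x hx.2.1 i)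
  simp only [Cn.vec, map_add, Derivation.leibniz, h3 a ha, h3 b hb, smul_zero, add_zero,
    Pi.add_apply, Pi.smul_apply]

theorem dv_mono (hS : S.Ok t n m) (hx : S.GenO n Y' x) (hY : Y.Finite) (h : Y ⊆ cl Y')
    (hδ : S.Tan x δ) (hf : f ∈ cl (Y ∪ range x)) : S.dv Y' x δ f = S.dv Y x δ f := by
  obtain ⟨h1, h2⟩ := dv_spec hS hx hδ
  rw [dv_eq hS (hx.mono hS hY h) (fun a ha => h1 a (cl_le h ha)) hf, funext h2]

end Vale.Agent.P292
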