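import Vale.Agent.P292.Defs
import Vale.Agent.P276.E.RkB

/-! P292 B/Emb (auxiliary names start with `bemb_`; see `notes/P292.md`).

Two homomorphisms with the same kernel are conjugate. Pass to the domain `R₀ = R ⧸ ker φ` (or
`φ.range`), which embeds by `φ₀`, `ψ₀`. `bemb_core` (general statement for two algebraically closed
fields `L`, `M` over a domain `k` with `trdeg k L = trdeg k M`): copy `baire_equiv` in
`P276/Baire.lean` (`exists_isTranscendenceBasis`, `IsTranscendenceBasis.cardinalMk_eq_trdeg`,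
`IsAlgClosure.equivOfEquiv`). The degrees agree by `trdeg_add_eq` (`trdeg ℂ R₀ + trdeg R₀ W = trdeg ℂ W`
for both structures) and cancellation of the finite cardinal `trdeg ℂ R₀`
(`Cardinal.add_right_inj_of_lt_aleph0`; finite as `R₀` embeds in `cl T`). Use a type synonym or
`letI` for the two algebra structures on `W`. -/

open Polynomial Set Matrix

noncomputable section

namespace Vale.Agent.P292

open Vale.Agent.P271 Vale.Agent.P276

variable {K : Type} [Field K] [Algebra ℂ K] {N n m : ℕ} {t : Fin (N + 1) → K} {S : Cn K N}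
  {W : Type} [Field W] [Algebra ℂ W]

variable {A B Y : Set W} {τ : Type} [Fintype τ]

theorem bemb_core {k L M : Type} [CommRing k] [Field L] [Field M] [Algebra k L] [Algebra k M]
    [FaithfulSMul k L] [FaithfulSMul k M] [IsAlgClosed L] [IsAlgClosed M]
    (h : Algebra.trdeg k L = Algebra.trdeg k M) :
    ∃ σ : L ≃+* M, ∀ a, σ (algebraMap k L a) = algebraMap k M a := by
  obtain ⟨s, hs⟩ := exists_isTranscendenceBasis k L
  obtain ⟨u, hu⟩ := exists_isTranscendenceBasis k M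
  have := RingHom.domain_nontrivial (algebraMap k L)
  obtain ⟨e⟩ := Cardinal.eq.1 (hs.cardinalMk_eq_trdeg.trans (h.trans hu.cardinalMk_eq_trdeg.symm))
  let := IsAlgClosed.isAlgClosure_of_transcendence_basis _ hs
  let := IsAlgClosed.isAlgClosure_of_transcendence_basis _ hu
  let e1 := (hs.1.aevalEquiv.symm.trans (MvPolynomial.renameEquiv k e)).trans hu.1.aevalEquiv
  refine ⟨IsAlgClosure.equivOfEquiv L M e1.toRingEquiv, fun a => ?_⟩
  rw [IsScalarTower.algebraMap_apply k (Algebra.adjoin k (range ((↑) : s → L))) L,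
    IsAlgClosure.equivOfEquiv_algebraMap,
    IsScalarTower.algebraMap_apply k (Algebra.adjoin k (range ((↑) : u → M))) M]
  exact congrArg _ (e1.commutes a)

theorem bemb_two {k L M : Type} [CommRing k] [Algebra ℂ k] [Field L] [Field M] [Algebra ℂ L]
    [Algebra ℂ M] [IsAlgClosed L] [IsAlgClosed M] (φ : k →ₐ[ℂ] L) (ψ : k →ₐ[ℂ] M)
    (hφ : Function.Injective φ) (hψ : Function.Injective ψ)
    (hf : Algebra.trdeg ℂ k < Cardinal.aleph0) (h : Algebra.trdeg ℂ L = Algebra.trdeg ℂ M) :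
    ∃ σ : L ≃ₐ[ℂ] M, ∀ a, σ (φ a) = ψ a := by
  let _ : Algebra k L := φ.toRingHom.toAlgebra
  let _ : Algebra k M := ψ.toRingHom.toAlgebra
  have : IsScalarTower ℂ k L := .of_algebraMap_eq fun c => (φ.commutes c).symm
  have : IsScalarTower ℂ k M := .of_algebraMap_eq fun c => (ψ.commutes c).symm
  have : FaithfulSMul k L := (faithfulSMul_iff_algebraMap_injective k L).2 hφ
  have : FaithfulSMul k M := (faithfulSMul_iff_algebraMap_injective k M).2 hψ
  have := RingHom.domain_nontrivial (algebraMap k L)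
  have h1 := (trdeg_add_eq ℂ k (A := L)).trans (h.trans (trdeg_add_eq ℂ k (A := M)).symm)
  rw [add_comm, add_comm (Algebra.trdeg ℂ k), Cardinal.add_right_inj_of_lt_aleph0 hf] at h1
  obtain ⟨σ, hσ⟩ := bemb_core h1
  refine ⟨AlgEquiv.ofRingEquiv (f := σ) fun c => ?_, hσ⟩
  rw [← φ.commutes, ← ψ.commutes]
  exact hσ _

theorem bemb_fin {T : Set W} (hT : T.Finite) : Algebra.trdeg ℂ (cl T) < Cardinal.aleph0 := by
  have h1 : (cl T).val '' ((cl T).val ⁻¹' T) = T :=
    image_preimage_eq_of_subset fun a ha => ⟨⟨a, subset_cl T ha⟩, rfl⟩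
  have : Algebra.IsAlgebraic (Algebra.adjoin ℂ ((cl T).val ⁻¹' T)) (cl T) :=
    ⟨fun a => mem_cl.1 ((mem_cl_map (cl T).val).1 (by rw [h1]; exact a.2))⟩
  exact (Algebra.IsAlgebraic.trdeg_le_cardinalMk ℂ ((cl T).val ⁻¹' T)).trans_lt
    (hT.preimage (cl T).val.injective.injOn).lt_aleph0

theorem aut_emb [IsAlgClosed W] {R : Type} [CommRing R] [Algebra ℂ R] (φ ψ : R →ₐ[ℂ] W)
    (hk : ∀ a, φ a = 0 ↔ ψ a = 0) {T : Set W} (hT : T.Finite) (h : ∀ a, φ a ∈ cl T) :
    ∃ θ : W ≃ₐ[ℂ] W, ∀ a, θ (φ a) = ψ a := by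
  let φ₀ : (R ⧸ RingHom.ker φ) →ₐ[ℂ] W := Ideal.Quotient.liftₐ _ φ fun a ha => ha
  let ψ₀ : (R ⧸ RingHom.ker φ) →ₐ[ℂ] W := Ideal.Quotient.liftₐ _ ψ fun a ha => (hk a).1 ha
  have h1 : Function.Injective φ₀ := (injective_iff_map_eq_zero _).2 fun a ha => by
    obtain ⟨a, rfl⟩ := Ideal.Quotient.mk_surjective a
    exact Ideal.Quotient.eq_zero_iff_mem.2 ha
  have h2 : Function.Injective ψ₀ := (injective_iff_map_eq_zero _).2 fun a ha => by
    obtain ⟨a, rfl⟩ := Ideal.Quotient.mk_surjective a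
    exact Ideal.Quotient.eq_zero_iff_mem.2 ((hk a).2 ha)
  have h3 : ∀ a, φ₀ a ∈ (cl T).toSubalgebra := fun a => by
    obtain ⟨a, rfl⟩ := Ideal.Quotient.mk_surjective a
    exact h a
  have h4 := trdeg_le_of_injective (φ₀.codRestrict _ h3)
    fun a b e => h1 (congrArg Subtype.val e)
  obtain ⟨θ, hθ⟩ := bemb_two φ₀ ψ₀ h1 h2 (h4.trans_lt (bemb_fin hT)) rfl
  exact ⟨θ, fun a => hθ (Ideal.Quotient.mk _ a)⟩

end Vale.Agent.P292
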