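import Vale.Agent.P292.B.Clo

/-! P292 B/Eu (auxiliary names start with `beu_`; see `notes/P292.md`).

With `D k z = pm ξ k`, `eu z = pm ε`: `om (eu) (D₂ z) = eu ⬝ᵥ ξ₂`, and
`om (eu) (⁅D₁, D₂⁆ z) = - (D₁ D₂ z - D₂ D₁ z) ⬝ᵥ ε` (`om_anti`, `om_pm`). Use `der_pm` twice with `b = ε`,
`jac3`, `j3_alt`, and `j3_eu : J3 ε b c = - ∑ (w i + w j - 1) pm i j * b i * c j` (`euler`, `hS.hom`,
`pm_alt`). Finally `D (eu z i) = w i * D (z i)`. -/

open Polynomial Set Matrix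

noncomputable section

namespace Vale.Agent.P292

open Vale.Agent.P271 Vale.Agent.P276

variable {K : Type} [Field K] [Algebra ℂ K] {N n m : ℕ} {t : Fin (N + 1) → K} {S : Cn K N}
  {W : Type} [Field W] [Algebra ℂ W]

variable {W' κ : Type} [Field W'] [Algebra ℂ W'] [Field κ] [Algebra ℂ κ] {z v v' δ : Fin S.M → W}
  {O : ValuationSubring W}

theorem bcl_eu (hS : S.Ok t n m) (z b c : Fin S.M → W) : bcl_G S z (S.eu z) b c =
    S.eu (S.pm z *ᵥ c) ⬝ᵥ b - S.eu (S.pm z *ᵥ b) ⬝ᵥ c - (S.pm z *ᵥ c) ⬝ᵥ b := by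
  have h1 : ∀ i j, ∑ l, MvPolynomial.aeval z (MvPolynomial.pderiv l (S.p i j)) * S.eu z l =
      ((S.w i : W) + S.w j - 1) * S.pm z i j := fun i j => by
    have h2 := congrArg (MvPolynomial.aeval z) (hS.hom i j).sum_weight_X_mul_pderiv
    have h3 : 1 ≤ S.w i + S.w j := le_add_right (hS.wpos i)
    simp only [map_sum, nsmul_eq_mul, map_mul, map_natCast, MvPolynomial.aeval_X, Nat.cast_sub h3,
      Nat.cast_add, Nat.cast_one, map_sub, map_add, map_one] at h2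
    refine (Finset.sum_congr rfl fun l _ => ?_).trans h2
    rw [Cn.eu]
    ring
  have h2 : S.eu (S.pm z *ᵥ b) ⬝ᵥ c = ∑ i, ∑ j, -((S.w j : W) * S.pm z i j * c j * b i) := by
    simp only [Cn.eu, mulVec, dotProduct, Finset.sum_mul, Finset.mul_sum]
    rw [Finset.sum_comm]
    refine Finset.sum_congr rfl fun i _ => Finset.sum_congr rfl fun j _ => ?_
    rw [bcl_alt hS z i j]
    ring
  rw [h2]
  simp only [bcl_G, h1]
  simp only [Cn.eu, mulVec, dotProduct, Finset.sum_mul, Finset.mul_sum, ← Finset.sum_sub_distrib]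
  exact Finset.sum_congr rfl fun i _ => Finset.sum_congr rfl fun j _ => by ring

/-- The differential of the contact form. -/
theorem der_eu (hS : S.Ok t n m) (h : S.On z) (h0 : z ≠ 0) (D₁ D₂ : Derivation ℂ W W) :
    D₁ (S.om z (S.eu z) fun i => D₂ (z i)) - D₂ (S.om z (S.eu z) fun i => D₁ (z i)) -
      S.om z (S.eu z) (fun i => ⁅D₁, D₂⁆ (z i)) =
    S.om z (fun i => D₁ (z i)) fun i => D₂ (z i) := by
  obtain ⟨ξ₁, h1⟩ := (tan_iff hS h h0).1 (h.der D₁)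
  obtain ⟨ξ₂, h2⟩ := (tan_iff hS h h0).1 (h.der D₂)
  obtain ⟨ε, h3⟩ := (tan_iff hS h h0).1 h.eu
  have e1 := om_pm hS h h0 h.eu ξ₁
  have e2 := om_pm hS h h0 h.eu ξ₂
  have e3 := om_pm hS h h0 (h.der ⁅D₁, D₂⁆) ε
  have e4 := om_pm hS h h0 (h.der D₁) ξ₂
  have c := bcl_cyc hS h ξ₁ ε ξ₂
  have c1 := bcl_eu hS z ξ₂ ξ₁
  have c2 := bcl_anti hS z (S.pm z *ᵥ ξ₂) ξ₁ ε
  have c3 : ∀ D : Derivation ℂ W W, (fun i => D (S.eu z i)) = S.eu fun i => D (z i) := fun D =>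
    funext fun i => by simp [Cn.eu]
  rw [bcl_br h1 h2, bcl_der hS, bcl_der hS] at e3
  simp only [h1, h2, h3] at e1 e2 e3 e4 c c1 c2
  rw [om_anti hS h h0 (h.der ⁅D₁, D₂⁆) h.eu, e1, e2, e3, e4, bcl_dot, bcl_dot, c3, c3]
  linear_combination c - c1 - c2

end Vale.Agent.P292
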