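import Vale.Agent.P292.B.Om

/-! P292 B/Form (auxiliary names start with `bform_`; see `notes/P292.md`).

`om_form`: `LinearMap.mk₂` with `om_left`, `om_right`; `om_anti` gives `IsAlt` (characteristic zero).
`om_dim`: pull `U`, `V` back to `S.TanS z` (`Submodule.comap (TanS z).subtype`,
`Submodule.comapSubtypeEquivOfLe`), `V' ≤ B.orthogonal U'`, `LinearMap.BilinForm.finrank_orthogonal`,
`hS.dim`, `Submodule.eq_of_le_of_finrank_le`. -/

open Polynomial Set Matrix

noncomputable section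

namespace Vale.Agent.P292

open Vale.Agent.P271 Vale.Agent.P276

variable {K : Type} [Field K] [Algebra ℂ K] {N n m : ℕ} {t : Fin (N + 1) → K} {S : Cn K N}
  {W : Type} [Field W] [Algebra ℂ W]

variable {W' κ : Type} [Field W'] [Algebra ℂ W'] [Field κ] [Algebra ℂ κ] {z v v' δ : Fin S.M → W}
  {O : ValuationSubring W}

theorem om_form (hS : S.Ok t n m) (h : S.On z) (h0 : z ≠ 0) :
    ∃ B : LinearMap.BilinForm W (S.TanS z), B.Nondegenerate ∧ B.IsAlt ∧
      ∀ v v' : S.TanS z, B v v' = S.om z v v' := by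
  have : CharZero W := charZero_of_injective_algebraMap (algebraMap ℂ W).injective
  refine ⟨LinearMap.mk₂ W (fun v v' : S.TanS z => S.om z v v')
    (fun a b c => by simpa using om_left z a.1 b.1 c.1 1 1)
    (fun r a c => by simpa using om_left z a.1 a.1 c.1 r 0)
    (fun a b c => by simpa using om_right hS h h0 a.2 b.2 c.2 1 1)
    (fun r a c => by simpa using om_right hS h h0 a.2 c.2 c.2 r 0), ⟨fun a ha => ?_, fun a ha => ?_⟩,
    fun a => ?_, fun _ _ => rfl⟩
  · refine Subtype.ext (om_nondeg hS h h0 a.2 fun v hv => ?_)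
    have h2 : S.om z a v = 0 := ha ⟨v, hv⟩
    rw [om_anti hS h h0 a.2 hv, h2, neg_zero]
  · exact Subtype.ext (om_nondeg hS h h0 a.2 fun v hv => ha ⟨v, hv⟩)
  · exact self_eq_neg.1 (om_anti hS h h0 a.2 a.2)

/-- Isotropic pairs of subspaces. -/
theorem om_dim (hS : S.Ok t n m) (h : S.On z) (h0 : z ≠ 0) {U V : Submodule W (Fin S.M → W)}
    (hU : U ≤ S.TanS z) (hV : V ≤ S.TanS z) (h1 : ∀ u ∈ U, ∀ v ∈ V, S.om z u v = 0) :
    Module.finrank W U + Module.finrank W V ≤ 2 * n + 2 ∧
      (2 * n + 2 ≤ Module.finrank W U + Module.finrank W V →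
        ∀ v, S.Tan z v → (∀ u ∈ U, S.om z u v = 0) → v ∈ V) := by
  obtain ⟨B, hB, -, hBe⟩ := om_form hS h h0
  have eU := (Submodule.comapSubtypeEquivOfLe hU).finrank_eq
  have eV := (Submodule.comapSubtypeEquivOfLe hV).finrank_eq
  have hle : V.comap (S.TanS z).subtype ≤ B.orthogonal (U.comap (S.TanS z).subtype) :=
    fun v hv u hu => (hBe u v).trans (h1 _ hu _ hv)
  have e1 := B.finrank_orthogonal hB (U.comap (S.TanS z).subtype)
  have e2 := Submodule.finrank_mono hle
  have e3 := Submodule.finrank_le (U.comap (S.TanS z).subtype)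
  rw [hS.dim W z h h0] at e1 e3
  refine ⟨by omega, fun hge v hv h2 => ?_⟩
  have e4 := Submodule.eq_of_le_of_finrank_le hle (by omega)
  have e5 : (⟨v, hv⟩ : S.TanS z) ∈ B.orthogonal (U.comap (S.TanS z).subtype) :=
    fun u hu => (hBe u _).trans (h2 _ hu)
  rw [← e4] at e5
  exact e5

end Vale.Agent.P292
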