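import Vale.Agent.P292.B.Pv
import Vale.Agent.P292.B.Aut

/-! P292 B/Gen (auxiliary names start with `bgen_`; see `notes/P292.md`).

`exists_gen`: an embedding `η : K →ₐ W` as in `exists_pt` (`P276/E/Gen.lean`), `rk (pj (η t)) = 2 n + 1`
(`egn_a_rk`, `pj_map`, `rk_image`), a fresh scalar `ν`, `y = ν η t` has rank `2 n + 2`, `aut_move` with
`Y := ∅`, `B := Y`, `hS.lift`, `rk_on`, `rk_union_le`. `mono`: `rk_rel`, `rk_on`. `map`: `rk_image`. -/

open Polynomial Set Matrix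

noncomputable section

namespace Vale.Agent.P292

open Vale.Agent.P271 Vale.Agent.P276

variable {K : Type} [Field K] [Algebra ℂ K] {N n m : ℕ} {t : Fin (N + 1) → K} {S : Cn K N}
  {W : Type} [Field W] [Algebra ℂ W]

variable {Y Y' : Set W} {x δ : Fin S.M → W} {f g h : W} {k l : ℕ}

theorem bgen_emb [IsAlgClosed W] (hX : Fano t n m) (hW : Big W) : Nonempty (K →ₐ[ℂ] W) := by
  obtain ⟨s, hs⟩ := exists_isTranscendenceBasis ℂ K
  have h1 := hs.cardinalMk_eq_trdeg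
  rw [hX.sm.1] at h1
  obtain ⟨q⟩ := Cardinal.mk_eq_nat_iff.1 h1
  obtain ⟨z, -, hz⟩ := hW n
  obtain ⟨η, -⟩ := amal_lift hs (hz.comp q q.injective)
  exact ⟨η⟩

theorem bgen_range {α : Type} (θ : W ≃ₐ[ℂ] W) (z : α → W) :
    (range fun i => θ (z i)) = θ '' range z := range_comp θ z

theorem bgen_rk (θ : W ≃ₐ[ℂ] W) (A : Set W) : rk (θ '' A) = rk A :=
  rk_image (θ : W →ₐ[ℂ] W) A

theorem bgen_pt [IsAlgClosed W] (hS : S.Ok t n m) (hW : Big W) :
    ∃ z : Fin S.M → W, S.On z ∧ rk (range z) = 2 * n + 2 := by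
  obtain ⟨η⟩ := bgen_emb hS.fano hW
  obtain ⟨l, hl⟩ : ∃ l, t l ≠ 0 := Function.ne_iff.1 hS.fano.ff.1
  obtain ⟨ν, hν⟩ := exists_fresh hW (finite_range fun j => η (t j))
  have h0 : ν ≠ 0 := fun h => hν (h ▸ zero_mem _)
  have hl' : η (t l) ≠ 0 := (map_ne_zero η).2 hl
  have h1 : On0 t fun j => ν * η (t j) := fun d P hP h => by
    rw [show (fun j => ν * η (t j)) = fun j => η (t j) * ν from funext fun j => mul_comm _ _,
      aeval_mul_homog hP, ← MvPolynomial.comp_aeval_apply, h, map_zero, zero_mul]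
  obtain ⟨z, hz, e⟩ := hS.lift W _ h1 (Function.ne_iff.2 ⟨l, mul_ne_zero h0 hl'⟩)
  refine ⟨z, hz, le_antisymm (rk_on hS hz) ?_⟩
  have h2 : rk (pj fun j => η (t j)) = 2 * n + 1 := by
    rw [pj_map, rk_image, egn_a_rk hS.fano]
  have h3 : ν * η (t l) ∉ cl (pj fun j => η (t j)) := fun h => hν (by
    rw [← mul_div_cancel_right₀ ν hl']
    exact div_mem (cl_le (pj_sub _) h) (subset_cl _ ⟨l, rfl⟩))
  have h4 : (range fun j => ν * η (t j)) ⊆ range z := by
    rw [← e]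
    exact range_comp_subset_range _ _
  have h5 := rk_insert (pj_finite _) h3
  rw [h2] at h5
  refine h5.ge.trans (rk_mono (finite_range z) (insert_subset (subset_cl _ (h4 ⟨l, rfl⟩)) ?_))
  rw [← pj_smul h0]
  exact (pj_sub _).trans (cl_mono h4)

theorem exists_gen [IsAlgClosed W] (hS : S.Ok t n m) (hW : Big W) (hY : Y.Finite) :
    ∃ x, S.GenO n Y x := by
  obtain ⟨z, hz, h1⟩ := bgen_pt hS hW
  obtain ⟨θ, -, h2⟩ := aut_move hW finite_empty (finite_range z) hY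
  refine ⟨fun i => θ (z i), hY, hz.map (θ : W →ₐ[ℂ] W), ?_⟩
  have h3 := rk_union_le hY ((finite_range z).image θ)
  simp only [empty_union, show rk (∅ : Set W) = 0 by simp [rk], bgen_rk, h1] at h2 h3
  rw [union_comm] at h2
  rw [bgen_range]
  omega

theorem Cn.GenO.ne (hx : S.GenO n Y x) : x ≠ 0 := by
  rintro rfl
  have h1 := rk_mono (A := Y ∪ range (0 : Fin S.M → W)) hx.1 (union_subset (subset_cl Y) (by
    rintro _ ⟨i, rfl⟩
    exact zero_mem _))
  have h2 := hx.2.2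
  omega

theorem Cn.GenO.mono (hS : S.Ok t n m) (hx : S.GenO n Y' x) (hY : Y.Finite) (h : Y ⊆ cl Y') :
    S.GenO n Y x := by
  refine ⟨hY, hx.2.1, ?_⟩
  have h1 := rk_rel hY hx.1 (finite_range x) h
  have h2 := rk_union_le hY (finite_range x)
  have h3 := rk_on hS hx.2.1
  have h4 := hx.2.2
  omega

theorem Cn.GenO.map (hx : S.GenO n Y x) (θ : W ≃ₐ[ℂ] W) :
    S.GenO n (θ '' Y) fun i => θ (x i) := by
  refine ⟨hx.1.image θ, hx.2.1.map (θ : W →ₐ[ℂ] W), ?_⟩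
  rw [bgen_range, ← image_union, bgen_rk, bgen_rk, hx.2.2]

end Vale.Agent.P292
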