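import Vale.Agent.P292.B.Disj
import Vale.Agent.P292.B.Emb

/-! P292 B/Glue (auxiliary names start with `bglue_`; see `notes/P292.md`).

`lin_disj`: `disj_rel` with `Y = ∅` (`cl ∅` is the image of `ℂ`). `aut_glue`: `aut_emb` with
`R = MvPolynomial (cl (Y ∪ A)) (cl (Y ∪ B))` (one variable per element), `φ = aeval val`,
`ψ = aeval (θ ∘ val)`, `T = Y ∪ A ∪ B`. Equal kernels (`bglue_ker`, used for `θ` and `θ.symm`): if
`∑ b i * f i = 0` with `b i ∈ cl (Y ∪ B)`, `f i ∈ cl (Y ∪ A)`, choose a basis `e` over `cl Y` of the span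
of the `f i`, `f i = ∑ c i j e j`; `disj_rel` gives `∑ i, b i c i j = 0`, so `∑ b i * θ (f i) = 0`. -/

open Polynomial Set Matrix

noncomputable section

namespace Vale.Agent.P292

open Vale.Agent.P271 Vale.Agent.P276

variable {K : Type} [Field K] [Algebra ℂ K] {N n m : ℕ} {t : Fin (N + 1) → K} {S : Cn K N}
  {W : Type} [Field W] [Algebra ℂ W]

variable {A B Y : Set W} {τ : Type} [Fintype τ]

theorem bglue_bot {x : W} (h : x ∈ cl (∅ : Set W)) : ∃ c : ℂ, algebraMap ℂ W c = x := by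
  have h1 := mem_cl.1 h
  have : Algebra.IsAlgebraic ℂ (Algebra.adjoin ℂ (∅ : Set W)) := by
    rw [Algebra.adjoin_empty]
    infer_instance
  have h2 : IsAlgebraic ℂ x := h1.restrictScalars ℂ
  exact minpoly.mem_range_of_degree_eq_one ℂ x
    (IsAlgClosed.degree_eq_one_of_irreducible ℂ (minpoly.irreducible h2.isIntegral))

theorem lin_disj [IsAlgClosed W] (hA : A.Finite) (hB : B.Finite) (h : rk A + rk B ≤ rk (A ∪ B))
    {f a : τ → W} (hf : LinearIndependent ℂ f) (h1 : ∀ i, f i ∈ cl A) (h2 : ∀ i, a i ∈ cl B)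
    (h0 : ∑ i, a i * f i = 0) : a = 0 := by
  refine disj_rel (Y := ∅) finite_empty hA hB ?_ (fun c hc h3 => ?_) (fun i => ?_) (fun i => ?_) h0
  · simp only [empty_union]
    omega
  · choose d hd using fun i => bglue_bot (hc i)
    have h4 := Fintype.linearIndependent_iff.1 hf d (by
      rw [← h3]
      exact Finset.sum_congr rfl fun i _ => by rw [← hd i, Algebra.smul_def])
    funext i
    rw [← hd i, h4 i, map_zero]
    rfl
  · rw [empty_union]
    exact h1 i
  · rw [empty_union]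
    exact h2 i

theorem bglue_ker [IsAlgClosed W] (hY : Y.Finite) (hA : A.Finite) (hB : B.Finite)
    {θ : W ≃ₐ[ℂ] W} (hθ : Fx (cl Y) θ) (h1 : rk (Y ∪ A) + rk (Y ∪ B) ≤ rk (Y ∪ A ∪ B) + rk Y)
    {f b : τ → W} (hf : ∀ i, f i ∈ cl (Y ∪ A)) (hb : ∀ i, b i ∈ cl (Y ∪ B))
    (h0 : ∑ i, b i * f i = 0) : ∑ i, b i * θ (f i) = 0 := by
  obtain ⟨κ, e, he, hsp, hli⟩ := exists_linearIndependent' (cl Y) f
  have : Finite κ := Finite.of_injective e he
  have : Fintype κ := Fintype.ofFinite κ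
  have hc : ∀ i, ∃ c : κ → cl Y, ∑ j, c j • (f ∘ e) j = f i := fun i =>
    (Submodule.mem_span_range_iff_exists_fun _).1 (hsp ▸ Submodule.subset_span ⟨i, rfl⟩)
  choose c hc using hc
  have hc' : ∀ i, f i = ∑ j, (c i j : W) * f (e j) := fun i => (hc i).symm
  have key : ∀ g : κ → W, ∑ i, b i * ∑ j, (c i j : W) * g j =
      ∑ j, (∑ i, b i * (c i j : W)) * g j := fun g => by
    simp only [Finset.mul_sum, Finset.sum_mul, mul_assoc]
    exact Finset.sum_comm
  have hz : (fun j => ∑ i, b i * (c i j : W)) = 0 := by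
    refine disj_rel hY hA hB h1 (f := fun j => f (e j)) (fun d hd h3 => ?_) (fun j => hf _)
      (fun j => ?_) ?_
    · have h4 := Fintype.linearIndependent_iff.1 hli (fun j => ⟨d j, hd j⟩) h3
      funext j
      exact congrArg Subtype.val (h4 j)
    · exact sum_mem fun i _ => mul_mem (hb i) (cl_mono subset_union_left (c i j).2)
    · rw [← key, ← h0]
      exact Finset.sum_congr rfl fun i _ => by rw [← hc' i]
  have h5 : ∀ i, θ (f i) = ∑ j, (c i j : W) * θ (f (e j)) := fun i => by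
    rw [hc' i, map_sum]
    exact Finset.sum_congr rfl fun j _ => by rw [map_mul, hθ _ (c i j).2]
  rw [Finset.sum_congr rfl fun i _ => congrArg (b i * ·) (h5 i), key]
  exact Finset.sum_eq_zero fun j _ => by rw [congrFun hz j, Pi.zero_apply, zero_mul]

theorem aut_glue [IsAlgClosed W] (hW : Big W) (hY : Y.Finite) (hA : A.Finite) (hB : B.Finite)
    {θ : W ≃ₐ[ℂ] W} (hθ : Fx (cl Y) θ) (h1 : rk (Y ∪ A) + rk (Y ∪ B) ≤ rk (Y ∪ A ∪ B) + rk Y)
    (h2 : rk (Y ∪ θ '' A) + rk (Y ∪ B) ≤ rk (Y ∪ θ '' A ∪ B) + rk Y) :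
    ∃ θ' : W ≃ₐ[ℂ] W, (∀ a ∈ cl (Y ∪ A), θ' a = θ a) ∧ Fx (cl (Y ∪ B)) θ' := by
  have hθ' : Fx (cl Y) θ.symm := fun a ha => by
    rw [AlgEquiv.symm_apply_eq, hθ a ha]
  have him : (θ : W →ₐ[ℂ] W) '' (Y ∪ A) = Y ∪ θ '' A := by
    rw [image_union]
    refine congrArg (· ∪ θ '' A) ?_
    exact (image_congr fun a ha => hθ a (subset_cl Y ha)).trans (image_id' Y)
  have hm : ∀ a ∈ cl (Y ∪ A), θ a ∈ cl (Y ∪ θ '' A) := fun a ha => by
    rw [← him]
    exact (mem_cl_map (θ : W →ₐ[ℂ] W)).2 ha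
  have hsum : ∀ (g : cl (Y ∪ A) →ₐ[ℂ] W) (s : Finset (cl (Y ∪ A) × cl (Y ∪ B))),
      Algebra.TensorProduct.productMap g (cl (Y ∪ B)).val (∑ i ∈ s, i.1 ⊗ₜ[ℂ] i.2) =
        ∑ i : s, (i.1.2 : W) * g i.1.1 := fun g s => by
    rw [map_sum, ← Finset.sum_coe_sort]
    exact Finset.sum_congr rfl fun i _ => mul_comm _ _
  obtain ⟨η, hη⟩ := aut_emb
    (Algebra.TensorProduct.productMap (cl (Y ∪ A)).val (cl (Y ∪ B)).val)
    (Algebra.TensorProduct.productMap ((θ : W →ₐ[ℂ] W).comp (cl (Y ∪ A)).val) (cl (Y ∪ B)).val)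
    (fun a => by
      obtain ⟨s, rfl⟩ := TensorProduct.exists_finset a
      rw [hsum, hsum]
      refine ⟨fun h => bglue_ker hY hA hB hθ h1 (fun i : s => i.1.1.2) (fun i => i.1.2.2) h,
        fun h => ?_⟩
      have h3 := bglue_ker hY (hA.image θ) hB hθ' h2 (fun i : s => hm _ i.1.1.2)
        (fun i => i.1.2.2) h
      simp only [AlgEquiv.symm_apply_apply] at h3
      exact h3)
    ((hY.union hA).union hB) (fun a => by
      obtain ⟨s, rfl⟩ := TensorProduct.exists_finset a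
      rw [hsum]
      refine sum_mem fun i _ => mul_mem (cl_mono ?_ i.1.2.2) (cl_mono subset_union_left i.1.1.2)
      exact union_subset_union_left B subset_union_left)
  refine ⟨η, fun a ha => ?_, fun a ha => ?_⟩
  · have h := hη (⟨a, ha⟩ ⊗ₜ[ℂ] 1)
    rw [Algebra.TensorProduct.productMap_left_apply, Algebra.TensorProduct.productMap_left_apply]
      at h
    exact h
  · have h := hη (1 ⊗ₜ[ℂ] ⟨a, ha⟩)
    rw [Algebra.TensorProduct.productMap_right_apply, Algebra.TensorProduct.productMap_right_apply]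
      at h
    exact h

end Vale.Agent.P292
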