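import Vale.Agent.P292.B.Pv
import Vale.Agent.P292.B.Glue

/-! P292 B/GenSp (auxiliary names start with `bgensp_`; see `notes/P292.md`).

`gen_sp0`: the point `g i = c i * r ^ w i` of `RatFunc K` (or `FractionRing K[X]`) is `On`, and
`On z → Sp ℂ g z` (the coefficient of `r ^ k` in `P (g)` is the weighted component of `P` at `c`;
`weightedHomogeneousComponent`, `aeval_sc`). `sp_of_indep` with `rk_on` for `g` and `indep_iff_rk` gives
`Sp ℂ x g`. `GenO.sp`: write `p = ∑ b i • p i` with `b` a `ℂ`-basis of the span of the coefficients and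
`p i` over `ℂ`; `lin_disj` (with `A := Y`, `B := range x`) gives `p i (x) = 0`. -/

open Polynomial Set Matrix

noncomputable section

namespace Vale.Agent.P292

open Vale.Agent.P271 Vale.Agent.P276

variable {K : Type} [Field K] [Algebra ℂ K] {N n m : ℕ} {t : Fin (N + 1) → K} {S : Cn K N}
  {W : Type} [Field W] [Algebra ℂ W]

variable {Y Y' : Set W} {x δ : Fin S.M → W} {f g h : W} {k l : ℕ}

theorem bgensp_comp {P : MvPolynomial (Fin S.M) ℂ}
    (h : MvPolynomial.aeval (S.sc X fun i => C (S.c i) : Fin S.M → K[X]) P = 0) (k : ℕ) :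
    MvPolynomial.aeval S.c (MvPolynomial.weightedHomogeneousComponent S.w k P) = 0 := by
  have hf := MvPolynomial.weightedHomogeneousComponent_finsupp (w := S.w) P
  have hs := MvPolynomial.sum_weightedHomogeneousComponent S.w P
  rw [finsum_eq_sum _ hf] at hs
  have e : ∀ j, MvPolynomial.aeval (S.sc X fun i => C (S.c i) : Fin S.M → K[X])
      (MvPolynomial.weightedHomogeneousComponent S.w j P) =
      X ^ j * C (MvPolynomial.aeval S.c (MvPolynomial.weightedHomogeneousComponent S.w j P)) := by
    intro j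
    rw [aeval_sc (MvPolynomial.weightedHomogeneousComponent_isWeightedHomogeneous j P)]
    congr 1
    exact (MvPolynomial.comp_aeval_apply S.c (CAlgHom : K →ₐ[ℂ] K[X]) _).symm
  by_cases hk : k ∈ hf.toFinset
  · rw [← hs, map_sum] at h
    simp only [e] at h
    have h2 := congrArg (fun q : K[X] => q.coeff k) h
    simp only [finsetSum_coeff, X_pow_mul_C, coeff_C_mul_X_pow, coeff_zero, Finset.sum_ite_eq,
      hk, if_true] at h2
    exact h2
  · have h2 : MvPolynomial.weightedHomogeneousComponent S.w k P = 0 := by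
      by_contra h3
      exact hk ((Set.Finite.mem_toFinset hf).2 h3)
    rw [h2, map_zero]

theorem bgensp_on {P : MvPolynomial (Fin S.M) ℂ}
    (h : MvPolynomial.aeval (S.sc X fun i => C (S.c i) : Fin S.M → K[X]) P = 0) {V : Type}
    [CommRing V] [Algebra ℂ V] {z : Fin S.M → V} (hz : S.On z) : MvPolynomial.aeval z P = 0 := by
  have hf := MvPolynomial.weightedHomogeneousComponent_finsupp (w := S.w) P
  have hs := MvPolynomial.sum_weightedHomogeneousComponent S.w P
  rw [finsum_eq_sum _ hf] at hs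
  rw [← hs, map_sum]
  exact Finset.sum_eq_zero fun j _ =>
    hz j _ (MvPolynomial.weightedHomogeneousComponent_isWeightedHomogeneous j P) (bgensp_comp h j)

theorem gen_sp0 (hS : S.Ok t n m) (h : S.On x) (hr : 2 * n + 2 ≤ rk (range x)) {V : Type}
    [CommRing V] [Algebra ℂ V] {x' : Fin S.M → V} (h' : S.On x') : Sp ℂ x x' := by
  let g₀ : Fin S.M → K[X] := S.sc X fun i => C (S.c i)
  let ι : K[X] →ₐ[ℂ] FractionRing K[X] := IsScalarTower.toAlgHom ℂ _ _
  have hι : Function.Injective ι := IsFractionRing.injective K[X] (FractionRing K[X])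
  have hc : S.On S.c := fun _ _ _ h => h
  have h0 : S.On g₀ := (hc.map (CAlgHom : K →ₐ[ℂ] K[X])).sc X
  have hg : S.On fun i => ι (g₀ i) := h0.map ι
  have h1 : Sp ℂ (fun i => ι (g₀ i)) g₀ := sp_of_inj ι hι g₀
  have h2 : Sp ℂ (fun i => ι (g₀ i)) x := h1.trans fun P hP => bgensp_on hP h
  have h3 : Sp ℂ x fun i => ι (g₀ i) := sp_of_indep h2 fun k hk =>
    (indep_iff_rk (finite_range _)).2
      (((indep_iff_rk (finite_range _)).1 hk).trans ((rk_on hS hg).trans hr))
  exact h3.trans (h1.trans fun P hP => bgensp_on hP h')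

theorem bgensp_dec {L σ : Type} [Field L] [Algebra ℂ L] (p : MvPolynomial σ L) :
    ∃ (r : ℕ) (b : Fin r → L) (q : Fin r → MvPolynomial σ ℂ), LinearIndependent ℂ b ∧
      p = ∑ i, MvPolynomial.C (b i) * MvPolynomial.map (algebraMap ℂ L) (q i) := by
  classical
  let U : Submodule ℂ L := Submodule.span ℂ (p.support.image fun ν => p.coeff ν : Finset L)
  haveI : Module.Finite ℂ U := Module.Finite.span_of_finite ℂ (Finset.finite_toSet _)
  have hm : ∀ ν, p.coeff ν ∈ U := fun ν => by
    by_cases h : ν ∈ p.support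
    · exact Submodule.subset_span (Finset.mem_coe.2 (Finset.mem_image_of_mem _ h))
    · rw [MvPolynomial.notMem_support_iff.1 h]
      exact U.zero_mem
  let b := Module.finBasis ℂ U
  refine ⟨_, fun i => (b i : L), fun i => ∑ ν ∈ p.support,
    MvPolynomial.monomial ν (b.repr ⟨p.coeff ν, hm ν⟩ i),
    b.linearIndependent.map' U.subtype (Submodule.ker_subtype U), ?_⟩
  simp only [map_sum, MvPolynomial.map_monomial, Finset.mul_sum, MvPolynomial.C_mul_monomial]
  rw [Finset.sum_comm]
  conv_lhs => rw [p.as_sum]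
  refine Finset.sum_congr rfl fun ν _ => ?_
  rw [← map_sum]
  congr 1
  have e := congrArg U.subtype (b.sum_repr ⟨p.coeff ν, hm ν⟩)
  simp only [map_sum, map_smul, Submodule.subtype_apply] at e
  exact e.symm.trans (Finset.sum_congr rfl fun i _ => by rw [Algebra.smul_def, mul_comm])

theorem bgensp_ev {L σ V : Type} [Field L] [Algebra ℂ L] [CommRing V] [Algebra ℂ V] [Algebra L V]
    [IsScalarTower ℂ L V] {r : ℕ} (b : Fin r → L) (q : Fin r → MvPolynomial σ ℂ) (y : σ → V) :
    MvPolynomial.aeval y (∑ i, MvPolynomial.C (b i) * MvPolynomial.map (algebraMap ℂ L) (q i)) =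
      ∑ i, MvPolynomial.aeval y (q i) * algebraMap L V (b i) := by
  simp only [map_sum, map_mul, MvPolynomial.aeval_C, MvPolynomial.aeval_map_algebraMap, mul_comm]

theorem Cn.GenO.sp [IsAlgClosed W] (hS : S.Ok t n m) (hx : S.GenO n Y x) {V : Type} [Field V]
    [Algebra ℂ V] [Algebra (cl Y) V] [IsScalarTower ℂ (cl Y) V] {x' : Fin S.M → V} (h : S.On x') :
    Sp (cl Y) x x' := by
  obtain ⟨hY, hon, hr⟩ := hx
  have h1 := rk_union_le hY (finite_range x)
  have h2 := rk_on hS hon
  have h3 : Sp ℂ x x' := gen_sp0 hS hon (by omega) h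
  intro p hp
  obtain ⟨r, b, q, hb, rfl⟩ := bgensp_dec p
  rw [bgensp_ev] at hp ⊢
  have h4 := lin_disj hY (finite_range x) (by omega) (f := fun i => (b i : W))
    (a := fun i => MvPolynomial.aeval x (q i))
    (hb.map' (cl Y).val.toLinearMap (LinearMap.ker_eq_bot.2 (cl Y).val.toRingHom.injective))
    (fun i => (b i).2) (fun i => egn_mem (subset_cl _) _) hp
  exact Finset.sum_eq_zero fun i _ => by rw [h3 _ (congrFun h4 i), zero_mul]

end Vale.Agent.P292
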