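import Vale.Agent.P292.Defs

/-! P292 B/Hom (auxiliary names start with `bhom_`; see `notes/P292.md`).

Polynomial identities. `aeval_sc`: `IsWeightedHomogeneous.induction_on` or sum over monomials
(`MvPolynomial.as_sum`, `Finsupp.weight_apply`). `der_aeval`: induction on `P`. `euler`:
`IsWeightedHomogeneous.sum_weight_X_mul_pderiv`. `pder_sc`: monomial by monomial (or apply `aeval_sc` in
the ring of dual numbers `TrivSqZeroExt R R`; or `pderiv_monomial`). -/

open Polynomial Set Matrix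

noncomputable section

namespace Vale.Agent.P292

open Vale.Agent.P271 Vale.Agent.P276

variable {K : Type} [Field K] [Algebra ℂ K] {N n m : ℕ} {t : Fin (N + 1) → K} {S : Cn K N}
  {W : Type} [Field W] [Algebra ℂ W]

variable {R R' : Type} [CommRing R] [Algebra ℂ R] [CommRing R'] [Algebra ℂ R'] {z δ : Fin S.M → R}

theorem bhom_mono (ρ : R) (z : Fin S.M → R) (d : Fin S.M →₀ ℕ) (a : ℂ) :
    MvPolynomial.aeval (S.sc ρ z) (MvPolynomial.monomial d a) =
      ρ ^ Finsupp.weight S.w d * MvPolynomial.aeval z (MvPolynomial.monomial d a) := by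
  rw [MvPolynomial.aeval_monomial, MvPolynomial.aeval_monomial, Finsupp.weight_apply,
    Finsupp.prod, Finsupp.prod, Finsupp.sum, ← Finset.prod_pow_eq_pow_sum, mul_left_comm,
    ← Finset.prod_mul_distrib]
  refine congrArg _ (Finset.prod_congr rfl fun i _ => ?_)
  rw [Cn.sc, mul_pow, ← pow_mul, smul_eq_mul, mul_comm (d i)]

theorem aeval_sc {P : MvPolynomial (Fin S.M) ℂ} {k : ℕ} (hP : P.IsWeightedHomogeneous S.w k) (ρ : R)
    (z : Fin S.M → R) : MvPolynomial.aeval (S.sc ρ z) P = ρ ^ k * MvPolynomial.aeval z P := by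
  rw [P.as_sum, map_sum, map_sum, Finset.mul_sum]
  refine Finset.sum_congr rfl fun d hd => ?_
  rw [bhom_mono, hP (MvPolynomial.mem_support_iff.1 hd)]

theorem pder_sc {P : MvPolynomial (Fin S.M) ℂ} {k : ℕ} (hP : P.IsWeightedHomogeneous S.w k) (ρ : R)
    (z : Fin S.M → R) (i : Fin S.M) :
    ρ ^ S.w i * MvPolynomial.aeval (S.sc ρ z) (MvPolynomial.pderiv i P) =
      ρ ^ k * MvPolynomial.aeval z (MvPolynomial.pderiv i P) := by
  rw [P.as_sum, map_sum, map_sum, map_sum, Finset.mul_sum, Finset.mul_sum]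
  refine Finset.sum_congr rfl fun d hd => ?_
  rw [MvPolynomial.pderiv_monomial, bhom_mono, ← mul_assoc, ← pow_add]
  by_cases h : d i = 0
  · simp [h]
  · have h1 : d - Finsupp.single i 1 + Finsupp.single i 1 = d :=
      tsub_add_cancel_of_le (Finsupp.single_le_iff.2 (Nat.one_le_iff_ne_zero.2 h))
    have h2 := congrArg (Finsupp.weight S.w) h1
    rw [map_add, Finsupp.weight_single, one_smul, hP (MvPolynomial.mem_support_iff.1 hd)] at h2
    rw [add_comm, h2]

theorem der_aeval {σ : Type} [Fintype σ] (D : Derivation ℂ R R) (z : σ → R)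
    (P : MvPolynomial σ ℂ) : D (MvPolynomial.aeval z P) =
      ∑ i, MvPolynomial.aeval z (MvPolynomial.pderiv i P) * D (z i) := by
  classical
  induction P using MvPolynomial.induction_on with
  | C a => simp
  | add P Q hP hQ => simp only [map_add, hP, hQ, add_mul, Finset.sum_add_distrib]
  | mul_X P j hP =>
    simp only [map_mul, MvPolynomial.aeval_X, Derivation.leibniz, hP, smul_eq_mul, map_add,
      add_mul, Finset.sum_add_distrib, Finset.mul_sum, MvPolynomial.pderiv_X, mul_assoc]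
    refine congrArg₂ _ ?_ rfl
    rw [Finset.sum_eq_single j (fun i _ hi => by simp [Pi.single_eq_of_ne' hi])
      (fun h => absurd (Finset.mem_univ _) h)]
    simp

theorem euler {P : MvPolynomial (Fin S.M) ℂ} {k : ℕ} (hP : P.IsWeightedHomogeneous S.w k)
    (z : Fin S.M → R) : ∑ i, MvPolynomial.aeval z (MvPolynomial.pderiv i P) * S.eu z i =
      k * MvPolynomial.aeval z P := by
  have h := congrArg (MvPolynomial.aeval z) hP.sum_weight_X_mul_pderiv
  simp only [map_sum, nsmul_eq_mul, map_mul, map_natCast, MvPolynomial.aeval_X] at h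
  rw [← h]
  exact Finset.sum_congr rfl fun i _ => by rw [Cn.eu]; ring

theorem pm_map (f : R →ₐ[ℂ] R') (z : Fin S.M → R) (i j : Fin S.M) :
    S.pm (fun i => f (z i)) i j = f (S.pm z i j) :=
  (MvPolynomial.comp_aeval_apply z f (S.p i j)).symm

theorem pm_alt (hS : S.Ok t n m) (z : Fin S.M → R) (i j : Fin S.M) :
    S.pm z j i = - S.pm z i j := by
  simp only [Cn.pm, Matrix.of_apply]
  rw [hS.alt i j, map_neg]

theorem pm_dot (hS : S.Ok t n m) (z ξ η : Fin S.M → R) :
    (S.pm z *ᵥ ξ) ⬝ᵥ η = - (ξ ⬝ᵥ S.pm z *ᵥ η) := by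
  simp only [dotProduct, Matrix.mulVec, Finset.sum_mul, Finset.mul_sum, ← Finset.sum_neg_distrib]
  rw [Finset.sum_comm]
  refine Finset.sum_congr rfl fun i _ => Finset.sum_congr rfl fun j _ => ?_
  rw [pm_alt hS z i j]
  ring

theorem pm_sc (hS : S.Ok t n m) (ρ : R) (z : Fin S.M → R) (i j : Fin S.M) :
    S.pm (S.sc ρ z) i j = ρ ^ (S.w i + S.w j - 1) * S.pm z i j :=
  aeval_sc (hS.hom i j) ρ z

end Vale.Agent.P292
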