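import Vale.Agent.P292.B.Dv
import Vale.Agent.P292.B.Clo

/-! P292 B/Jac (auxiliary names start with `bjac_`; see `notes/P292.md`).

`pb_jac`: `closed` for `D f = dv (vec f)` etc.; `der_eq_om` turns `om (D x) (vec h)` into `D h` for every
`D` killing `cl Y` (also for the commutators), so `J = 2 J` (`pb_om`, `om_anti`). `Wt.vec`: with
`E = dv (eu x)`, `X = dv (pm x i)`: `⁅E, X⁆ (x j) = (w i - 1) * pm i j` (`der_aeval`, `euler`, `hS.hom`), so
`⁅E, X⁆ - (w i - 1) • X` kills `cl (Y ∪ range x)` (`der_kill`). `Wt.pb`: `⁅E, dv (vec f)⁆` kills `x j` by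
`Wt.vec`. -/

open Polynomial Set Matrix

set_option linter.unusedSectionVars false

noncomputable section

namespace Vale.Agent.P292

open Vale.Agent.P271 Vale.Agent.P276

variable {K : Type} [Field K] [Algebra ℂ K] {N n m : ℕ} {t : Fin (N + 1) → K} {S : Cn K N}
  {W : Type} [Field W] [Algebra ℂ W]

variable {Y Y' : Set W} {x δ : Fin S.M → W} {f g h : W} {k l : ℕ}

theorem bjc_ext (hS : S.Ok t n m) (hx : S.GenO n Y x) {D D' : Derivation ℂ W W}
    (h : ∀ a ∈ cl Y, D a = 0) (h' : ∀ a ∈ cl Y, D' a = 0) (he : ∀ j, D (x j) = D' (x j))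
    (hf : f ∈ cl (Y ∪ range x)) : D f = D' f := by
  rw [dv_eq hS hx h hf, dv_eq hS hx h' hf, funext he]

theorem bjc_br {D D' : Derivation ℂ W W} (h : ∀ a ∈ cl Y, D a = 0) (h' : ∀ a ∈ cl Y, D' a = 0) :
    ∀ a ∈ cl Y, ⁅D, D'⁆ a = 0 := fun a ha => by
  rw [Derivation.commutator_apply, h a ha, h' a ha, map_zero, map_zero, sub_zero]

theorem bjc_anti (hS : S.Ok t n m) (hx : S.GenO n Y x) (hf : f ∈ cl (Y ∪ range x))
    (hg : g ∈ cl (Y ∪ range x)) : S.pb Y x g f = - S.pb Y x f g := by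
  rw [(pb_om hS hx hf hg).1, (pb_om hS hx hg hf).1,
    om_anti hS hx.2.1 hx.ne (vec_tan hS hx hf).1 (vec_tan hS hx hg).1]

theorem bjc_one (hS : S.Ok t n m) (hx : S.GenO n Y x) (hf : f ∈ cl (Y ∪ range x))
    (hg : g ∈ cl (Y ∪ range x)) (hh : h ∈ cl (Y ∪ range x)) :
    S.om x (fun i => ⁅S.dv Y x (S.vec Y x f), S.dv Y x (S.vec Y x g)⁆ (x i)) (S.vec Y x h) =
      S.pb Y x f (S.pb Y x g h) + S.pb Y x g (S.pb Y x h f) := by
  rw [← der_eq_om hS hx (bjc_br (dv_spec hS hx (vec_tan hS hx hf).1).1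
    (dv_spec hS hx (vec_tan hS hx hg).1).1) hh, bjc_anti hS hx hf hh, Derivation.commutator_apply]
  simp only [Cn.pb, map_neg, sub_eq_add_neg]

theorem pb_jac (hS : S.Ok t n m) (hx : S.GenO n Y x) (hf : f ∈ cl (Y ∪ range x))
    (hg : g ∈ cl (Y ∪ range x)) (hh : h ∈ cl (Y ∪ range x)) :
    S.pb Y x f (S.pb Y x g h) + S.pb Y x g (S.pb Y x h f) + S.pb Y x h (S.pb Y x f g) = 0 := by
  have c := closed hS hx.2.1 hx.ne (S.dv Y x (S.vec Y x f)) (S.dv Y x (S.vec Y x g))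
    (S.dv Y x (S.vec Y x h))
  have e : ∀ {a : W}, a ∈ cl (Y ∪ range x) →
      (fun i => S.dv Y x (S.vec Y x a) (x i)) = S.vec Y x a := fun ha =>
    funext (dv_spec hS hx (vec_tan hS hx ha).1).2
  rw [e hf, e hg, e hh, bjc_one hS hx hf hg hh, bjc_one hS hx hg hh hf, bjc_one hS hx hh hf hg,
    ← (pb_om hS hx hg hh).1, ← (pb_om hS hx hh hf).1, ← (pb_om hS hx hf hg).1] at c
  have c' : S.pb Y x f (S.pb Y x g h) + S.pb Y x g (S.pb Y x h f) + S.pb Y x h (S.pb Y x f g) =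
    _ := c
  linear_combination -c'

theorem bjc_eu {D : Derivation ℂ W W} (hD : ∀ j, D (x j) = S.eu x j)
    {P : MvPolynomial (Fin S.M) ℂ} (hP : P.IsWeightedHomogeneous S.w k) :
    D (MvPolynomial.aeval x P) = k * MvPolynomial.aeval x P := by
  have h2 := congrArg (MvPolynomial.aeval x) hP.sum_weight_X_mul_pderiv
  simp only [map_sum, nsmul_eq_mul, map_mul, map_natCast, MvPolynomial.aeval_X] at h2
  rw [bcl_chain, ← h2]
  exact Finset.sum_congr rfl fun l _ => by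
    rw [hD, Cn.eu]
    ring

theorem Cn.Wt.vec (hS : S.Ok t n m) (hx : S.GenO n Y x) (hf : S.Wt Y x k f) (i : Fin S.M) :
    S.Wt Y x (k + S.w i - 1) (S.vec Y x f i) := by
  refine ⟨(vec_tan hS hx hf.1).2 i, ?_⟩
  obtain ⟨a1, a2⟩ := dv_spec hS hx hx.2.1.eu
  obtain ⟨b1, b2⟩ := dv_spec hS hx (hS.tanp W x hx.2.1 i)
  have c : ∀ j, ((j + S.w i - 1 : ℕ) : W) = j + S.w i - 1 := fun j => by
    rw [Nat.cast_sub (le_add_left (hS.wpos i)), Nat.cast_add, Nat.cast_one]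
  have h1 := bjc_ext hS hx (D' := ((S.w i : W) - 1) • S.dv Y x (S.pm x i)) (bjc_br a1 b1)
    (fun a ha => by rw [Derivation.smul_apply, b1 a ha, smul_zero]) (fun j => by
      have h2 : S.dv Y x (S.eu x) (S.pm x i j) = _ * S.pm x i j := bjc_eu a2 (hS.hom i j)
      rw [Derivation.commutator_apply, Derivation.smul_apply, a2, b2, h2, add_comm, c, Cn.eu,
        Derivation.leibniz, b2, Derivation.map_natCast]
      simp only [smul_eq_mul]
      ring) hf.1
  rw [Derivation.commutator_apply, Derivation.smul_apply, hf.2, Derivation.leibniz,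
    Derivation.map_natCast] at h1
  simp only [smul_eq_mul] at h1
  rw [c, Cn.vec]
  linear_combination h1

theorem Cn.Wt.pb (hS : S.Ok t n m) (hx : S.GenO n Y x) (hf : S.Wt Y x 1 f) (hg : S.Wt Y x k g) :
    S.Wt Y x k (S.pb Y x f g) := by
  refine ⟨(pb_om hS hx hf.1 hg.1).2, ?_⟩
  obtain ⟨a1, a2⟩ := dv_spec hS hx hx.2.1.eu
  obtain ⟨b1, b2⟩ := dv_spec hS hx (vec_tan hS hx hf.1).1
  have h1 := bjc_ext hS hx (D' := 0) (bjc_br a1 b1) (fun _ _ => rfl) (fun j => by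
    rw [Derivation.commutator_apply, a2, b2, (hf.vec hS hx j).2, Nat.add_sub_cancel_left, Cn.eu,
      Derivation.leibniz, b2, Derivation.map_natCast]
    simp) hg.1
  rw [Derivation.commutator_apply, hg.2, Derivation.leibniz, Derivation.map_natCast] at h1
  simp only [smul_eq_mul, Derivation.zero_apply] at h1
  rw [Cn.pb]
  linear_combination h1

end Vale.Agent.P292
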