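import Vale.Agent.P292.B.Dv

/-! P292 B/Map (auxiliary names start with `bmap_`; see `notes/P292.md`).

Conjugate the derivation `S.dv Y x δ` by `θ` (a `Derivation` structure with underlying map
`θ ∘ D ∘ θ.symm`), then `dv_eq` for `Cn.GenO.map`, `mem_cl_map`, `dv_spec`; `pm_map` for `vec_map`. -/

open Polynomial Set Matrix

noncomputable section

namespace Vale.Agent.P292

open Vale.Agent.P271 Vale.Agent.P276

variable {K : Type} [Field K] [Algebra ℂ K] {N n m : ℕ} {t : Fin (N + 1) → K} {S : Cn K N}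
  {W : Type} [Field W] [Algebra ℂ W]

variable {Y Y' : Set W} {x δ : Fin S.M → W} {f g h : W} {k l : ℕ}

theorem bmap_conj (θ : W ≃ₐ[ℂ] W) (D : Derivation ℂ W W) :
    ∃ D' : Derivation ℂ W W, ∀ a, D' (θ a) = θ (D a) := by
  refine ⟨Derivation.mk' (θ.toLinearMap ∘ₗ (D : W →ₗ[ℂ] W) ∘ₗ θ.symm.toLinearMap) ?_, ?_⟩
  · intro a b
    show θ (D (θ.symm (a * b))) = a • θ (D (θ.symm b)) + b • θ (D (θ.symm a))
    rw [map_mul, D.leibniz, smul_eq_mul, smul_eq_mul, smul_eq_mul, smul_eq_mul, map_add, map_mul,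
      map_mul, θ.apply_symm_apply, θ.apply_symm_apply]
  · intro a
    show θ (D (θ.symm (θ a))) = _
    rw [θ.symm_apply_apply]

theorem dv_map (hS : S.Ok t n m) (hx : S.GenO n Y x) (θ : W ≃ₐ[ℂ] W) (hδ : S.Tan x δ)
    (hf : f ∈ cl (Y ∪ range x)) :
    S.dv (θ '' Y) (fun i => θ (x i)) (fun i => θ (δ i)) (θ f) = θ (S.dv Y x δ f) := by
  obtain ⟨D', hD⟩ := bmap_conj θ (S.dv Y x δ)
  obtain ⟨h1, h2⟩ := dv_spec hS hx hδ
  have h3 : ∀ a ∈ cl (θ '' Y), D' a = 0 := fun a ha => by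
    obtain ⟨b, rfl⟩ := θ.surjective a
    rw [hD, h1 b ((mem_cl_map (θ : W →ₐ[ℂ] W)).1 ha), map_zero]
  have h4 : θ f ∈ cl (θ '' Y ∪ range fun i => θ (x i)) := by
    have h0 := (mem_cl_map (θ : W →ₐ[ℂ] W)).2 hf
    rw [image_union, ← range_comp] at h0
    exact h0
  have h5 := dv_eq hS (hx.map θ) h3 h4
  rw [← hD, h5]
  simp only [hD, h2]

theorem vec_map (hS : S.Ok t n m) (hx : S.GenO n Y x) (θ : W ≃ₐ[ℂ] W)
    (hf : f ∈ cl (Y ∪ range x)) (i : Fin S.M) :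
    S.vec (θ '' Y) (fun i => θ (x i)) (θ f) i = θ (S.vec Y x f i) := by
  have h1 : S.pm (fun i => θ (x i)) i = fun j => θ (S.pm x i j) :=
    funext (pm_map (θ : W →ₐ[ℂ] W) x i)
  unfold Cn.vec
  rw [h1]
  exact dv_map hS hx θ (hS.tanp W x hx.2.1 i) hf

end Vale.Agent.P292
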