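import Vale.Agent.P292.B.Ring
import Vale.Agent.P276.E.RkB
import Vale.Agent.P276.E.Gen

/-! P292 B/Om (auxiliary names start with `bom_`; see `notes/P292.md`).

`e0_ne`: `hS.pinj` for the tangent vector `S.eu z`, characteristic zero, `hS.wpos`. `tan_iff`: `hS.inv`.
`om_pm`: the chosen `ξ'` has `pm (ξ' - ξ) = 0`, write `v = pm η` and use `pm_dot`. `om_sc`:
`sc ρ v' = pm (sc ρ z) *ᵥ (ρ * (ρ ^ w j)⁻¹ * ξ j)` (`pm_sc`). `om_mem`: `om = v ⬝ᵥ (a (z) v') / q (z)` from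
`hS.inv` (`om_inv`), `egn_mem`. -/

open Polynomial Set Matrix

noncomputable section

namespace Vale.Agent.P292

open Vale.Agent.P271 Vale.Agent.P276

variable {K : Type} [Field K] [Algebra ℂ K] {N n m : ℕ} {t : Fin (N + 1) → K} {S : Cn K N}
  {W : Type} [Field W] [Algebra ℂ W]

variable {W' κ : Type} [Field W'] [Algebra ℂ W'] [Field κ] [Algebra ℂ κ] {z v v' δ : Fin S.M → W}
  {O : ValuationSubring W}

theorem bom_sc (hS : S.Ok t n m) (ρ : W) (z : Fin S.M → W) (i j : Fin S.M) :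
    ρ * S.pm (S.sc ρ z) i j = ρ ^ S.w i * ρ ^ S.w j * S.pm z i j := by
  have h := hS.wpos i
  rw [pm_sc hS, ← mul_assoc, ← pow_succ', ← pow_add, Nat.sub_add_cancel (by omega)]

theorem e0_ne (hS : S.Ok t n m) (h : S.On z) (h0 : z ≠ 0) : z ∘ S.e0 ≠ 0 := by
  intro h1
  have hc : CharZero W := charZero_of_injective_algebraMap (algebraMap ℂ W).injective
  have h2 := hS.pinj W z (S.eu z) h h0 h.eu (funext fun j => by
    have h3 : z (S.e0 j) = 0 := congrFun h1 j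
    change (S.w (S.e0 j) : W) * z (S.e0 j) = 0
    rw [h3, mul_zero])
  refine h0 (funext fun i => ?_)
  have h4 : (S.w i : W) * z i = 0 := congrFun h2 i
  exact (mul_eq_zero.1 h4).resolve_left (Nat.cast_ne_zero.2 (hS.wpos i).ne')

theorem tan_iff (hS : S.Ok t n m) (h : S.On z) (h0 : z ≠ 0) :
    S.Tan z δ ↔ ∃ ξ, S.pm z *ᵥ ξ = δ := by
  refine ⟨fun hδ => ?_, fun ⟨ξ, hξ⟩ => hξ ▸ tan_pm hS h ξ⟩
  obtain ⟨q, a, hq, ha⟩ := hS.inv W z h h0
  refine ⟨(MvPolynomial.aeval z q)⁻¹ • (a.map (MvPolynomial.aeval z) *ᵥ δ), ?_⟩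
  rw [Matrix.mulVec_smul, ha W z δ h hδ, inv_smul_smul₀ hq]

theorem om_pm (hS : S.Ok t n m) (h : S.On z) (h0 : z ≠ 0) (hv : S.Tan z v) (ξ : Fin S.M → W) :
    S.om z v (S.pm z *ᵥ ξ) = v ⬝ᵥ ξ := by
  have he : ∃ ξ', S.pm z *ᵥ ξ' = S.pm z *ᵥ ξ := ⟨ξ, rfl⟩
  obtain ⟨η, rfl⟩ := (tan_iff hS h h0).1 hv
  rw [Cn.om, dif_pos he, pm_dot hS, pm_dot hS z η ξ, he.choose_spec]

theorem om_anti (hS : S.Ok t n m) (h : S.On z) (h0 : z ≠ 0) (hv : S.Tan z v) (hv' : S.Tan z v') :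
    S.om z v' v = - S.om z v v' := by
  obtain ⟨η, hη⟩ := (tan_iff hS h h0).1 hv
  obtain ⟨η', hη'⟩ := (tan_iff hS h h0).1 hv'
  have e1 := om_pm hS h h0 hv' η
  have e2 := om_pm hS h h0 hv η'
  rw [hη] at e1
  rw [hη'] at e2
  rw [e1, e2, ← hη, ← hη', pm_dot hS z η' η, dotProduct_comm]

theorem om_nondeg (hS : S.Ok t n m) (h : S.On z) (h0 : z ≠ 0) (hv : S.Tan z v)
    (h1 : ∀ v', S.Tan z v' → S.om z v' v = 0) : v = 0 := by
  funext i
  have h2 := h1 _ (tan_pm hS h (Pi.single i 1))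
  rw [om_anti hS h h0 hv (tan_pm hS h _), om_pm hS h h0 hv, neg_eq_zero, dotProduct_single,
    mul_one] at h2
  exact h2

theorem om_left (z v v' δ : Fin S.M → W) (a b : W) :
    S.om z (a • v + b • v') δ = a * S.om z v δ + b * S.om z v' δ := by
  unfold Cn.om
  split_ifs with he
  · rw [add_dotProduct, smul_dotProduct, smul_dotProduct, smul_eq_mul, smul_eq_mul]
  · rw [mul_zero, mul_zero, add_zero]

theorem om_right (hS : S.Ok t n m) (h : S.On z) (h0 : z ≠ 0) (hδ : S.Tan z δ) (hv : S.Tan z v)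
    (hv' : S.Tan z v') (a b : W) :
    S.om z δ (a • v + b • v') = a * S.om z δ v + b * S.om z δ v' := by
  have ht : S.Tan z (a • v + b • v') :=
    (S.TanS z).add_mem ((S.TanS z).smul_mem a hv) ((S.TanS z).smul_mem b hv')
  rw [om_anti hS h h0 ht hδ, om_left, om_anti hS h h0 hv hδ, om_anti hS h h0 hv' hδ]
  ring

theorem om_map (hS : S.Ok t n m) (h : S.On z) (h0 : z ≠ 0) (hv : S.Tan z v) (hv' : S.Tan z v')
    (f : W →ₐ[ℂ] W') :
    S.om (fun i => f (z i)) (fun i => f (v i)) (fun i => f (v' i)) = f (S.om z v v') := by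
  obtain ⟨η, rfl⟩ := (tan_iff hS h h0).1 hv'
  have h0' : (fun i => f (z i)) ≠ 0 := fun he => h0 (funext fun i =>
    (map_eq_zero_iff f f.injective).1 (congrFun he i))
  have e : (fun i => f ((S.pm z *ᵥ η) i)) = S.pm (fun i => f (z i)) *ᵥ fun i => f (η i) := by
    funext i
    change f (∑ j, MvPolynomial.aeval z (S.p i j) * η j) =
      ∑ j, MvPolynomial.aeval (fun i => f (z i)) (S.p i j) * f (η j)
    rw [map_sum]
    exact Finset.sum_congr rfl fun j _ => by rw [map_mul, MvPolynomial.comp_aeval_apply]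
  rw [e, om_pm hS (h.map f) h0' (hv.map f), om_pm hS h h0 hv]
  change ∑ i, f (v i) * f (η i) = f (∑ i, v i * η i)
  rw [map_sum]
  exact Finset.sum_congr rfl fun j _ => (map_mul f _ _).symm

theorem om_sc (hS : S.Ok t n m) (h : S.On z) (h0 : z ≠ 0) (hv : S.Tan z v) (hv' : S.Tan z v')
    {ρ : W} (hρ : ρ ≠ 0) : S.om (S.sc ρ z) (S.sc ρ v) (S.sc ρ v') = ρ * S.om z v v' := by
  obtain ⟨η, rfl⟩ := (tan_iff hS h h0).1 hv'
  have h0' : S.sc ρ z ≠ 0 := fun he => h0 (funext fun i =>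
    (mul_eq_zero.1 (congrFun he i : ρ ^ S.w i * z i = 0)).resolve_left (pow_ne_zero _ hρ))
  have e : S.sc ρ (S.pm z *ᵥ η) = S.pm (S.sc ρ z) *ᵥ fun j => ρ * (ρ ^ S.w j)⁻¹ * η j := by
    funext i
    change ρ ^ S.w i * ∑ j, S.pm z i j * η j =
      ∑ j, S.pm (S.sc ρ z) i j * (ρ * (ρ ^ S.w j)⁻¹ * η j)
    rw [Finset.mul_sum]
    refine Finset.sum_congr rfl fun j _ => ?_
    have h1 := bom_sc hS ρ z i j
    have h2 : ρ ^ S.w j ≠ 0 := pow_ne_zero _ hρ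
    calc ρ ^ S.w i * (S.pm z i j * η j)
        = ρ ^ S.w i * ρ ^ S.w j * S.pm z i j * ((ρ ^ S.w j)⁻¹ * η j) := by field_simp
      _ = _ := by rw [← h1]; ring
  rw [e, om_pm hS (h.sc ρ) h0' (hv.sc ρ), om_pm hS h h0 hv]
  change ∑ i, ρ ^ S.w i * v i * (ρ * (ρ ^ S.w i)⁻¹ * η i) = ρ * ∑ i, v i * η i
  rw [Finset.mul_sum]
  refine Finset.sum_congr rfl fun j _ => ?_
  have h2 : ρ ^ S.w j ≠ 0 := pow_ne_zero _ hρ
  field_simp

theorem om_inv (hS : S.Ok t n m) (h : S.On z) (h0 : z ≠ 0) (hv : S.Tan z v) {q : W} (hq : q ≠ 0)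
    {ξ : Fin S.M → W} (hξ : S.pm z *ᵥ ξ = q • v') : S.om z v v' = (v ⬝ᵥ ξ) / q := by
  have e : v' = S.pm z *ᵥ (q⁻¹ • ξ) := by rw [Matrix.mulVec_smul, hξ, inv_smul_smul₀ hq]
  rw [e, om_pm hS h h0 hv, dotProduct_smul, smul_eq_mul, div_eq_inv_mul]

theorem om_mem (hS : S.Ok t n m) (h : S.On z) (h0 : z ≠ 0) (hv : S.Tan z v) (hv' : S.Tan z v') :
    S.om z v v' ∈ cl (range z ∪ range v ∪ range v') := by
  obtain ⟨q, a, hq, ha⟩ := hS.inv W z h h0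
  have hz : range z ⊆ cl (range z ∪ range v ∪ range v') :=
    (subset_union_left.trans subset_union_left).trans (subset_cl _)
  rw [om_inv hS h h0 hv hq (ha W z v' h hv')]
  refine div_mem (sum_mem fun i _ => mul_mem (subset_cl _ (Or.inl (Or.inr ⟨i, rfl⟩))) ?_)
    (egn_mem hz _)
  change ∑ j, MvPolynomial.aeval z (a i j) * v' j ∈ _
  exact sum_mem fun j _ => mul_mem (egn_mem hz _) (subset_cl _ (Or.inr ⟨j, rfl⟩))

end Vale.Agent.P292
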