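import Vale.Agent.P292.B.Red
import Vale.Agent.P276.E.GenA

/-! P292 B/Pv (auxiliary names start with `bpv_`; see `notes/P292.md`).

`pv_iff`: the residue of `z` is a nonzero point (`exists_resf`, `red_on`), `e0_ne`; conversely `hS.int`.
`exists_pv`: `exists_PV` for `z ∘ e0`, a root `ρ ^ (m * (n + 1)) = (z (e0 j))⁻¹`, `cl_pow`, `pv_iff`.
`sub_cl_e0`: `mem_cl_of_val`, `hS.int`, `Ov.empty`. `rk_on`: `rk_mono`, `range_sub`, `rk_insert_le`,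
`rk_pj_le hS.fano`. -/

open Polynomial Set Matrix

noncomputable section

namespace Vale.Agent.P292

open Vale.Agent.P271 Vale.Agent.P276

variable {K : Type} [Field K] [Algebra ℂ K] {N n m : ℕ} {t : Fin (N + 1) → K} {S : Cn K N}
  {W : Type} [Field W] [Algebra ℂ W]

variable {W' κ : Type} [Field W'] [Algebra ℂ W'] [Field κ] [Algebra ℂ κ] {z v v' δ : Fin S.M → W}
  {O : ValuationSubring W}

theorem pv_iff (hS : S.Ok t n m) (hO : Ov ∅ O) (h : S.On z) : PV O z ↔ PV O (z ∘ S.e0) := by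
  refine ⟨fun ⟨h1, a, ha⟩ => ⟨fun j => h1 _, ?_⟩, fun ⟨h1, j, hj⟩ => ⟨hS.int W O hO z h h1, _, hj⟩⟩
  obtain ⟨κ, _, _, P, rfl⟩ := exists_resf hO
  have hr : P.RedV z fun i => P.r ⟨z i, h1 i⟩ := fun i => ⟨h1 i, rfl⟩
  have h0 : (fun i => P.r ⟨z i, h1 i⟩) ≠ 0 := fun e => (hr a).ne_zero ha (congrFun e a)
  obtain ⟨j, hj⟩ := Function.ne_iff.1 (e0_ne hS (red_on P h hr) h0)
  exact ⟨j, (hr (S.e0 j)).val_eq_one hj⟩

theorem exists_pv [IsAlgClosed W] (hS : S.Ok t n m) (hO : Ov ∅ O) (h : S.On z) (h0 : z ≠ 0) :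
    ∃ ρ : W, ρ ≠ 0 ∧ ρ ∈ cl (range z) ∧ PV O (S.sc ρ z) := by
  obtain ⟨j, hj, hp⟩ := exists_PV O (e0_ne hS h h0)
  have hk : 0 < m * (n + 1) := Nat.mul_pos hS.fano.pos n.succ_pos
  obtain ⟨ρ, hρ⟩ := IsAlgClosed.exists_pow_nat_eq ((z ∘ S.e0) j)⁻¹ hk
  refine ⟨ρ, fun e => ?_, cl_pow hk.ne' ?_, (pv_iff hS hO (h.sc ρ)).2 ?_⟩
  · rw [e, zero_pow hk.ne'] at hρ
    exact inv_ne_zero hj hρ.symm
  · rw [hρ]
    exact (cl (range z)).inv_mem (subset_cl _ ⟨_, rfl⟩)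
  · have e : S.sc ρ z ∘ S.e0 = fun a => ((z ∘ S.e0) j)⁻¹ * (z ∘ S.e0) a := funext fun a => by
      rw [← hρ, ← hS.we0 a]
      rfl
    rw [e]
    exact hp

theorem sub_cl_e0 (hS : S.Ok t n m) (h : S.On z) : range z ⊆ cl (range (z ∘ S.e0)) := by
  rintro _ ⟨i, rfl⟩
  exact mem_cl_of_val fun O hO =>
    hS.int W O hO.empty z h (fun j => hO _ (subset_cl _ ⟨j, rfl⟩)) i

theorem rk_on (hS : S.Ok t n m) (h : S.On z) : rk (range z) ≤ 2 * n + 2 := by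
  have h1 := rk_pj_le hS.fano (h.on0 hS)
  have hf := pj_finite (z ∘ S.e0)
  by_cases h0 : z ∘ S.e0 = 0
  · have h2 : range (z ∘ S.e0) ⊆ cl (pj (z ∘ S.e0)) := by
      rintro _ ⟨j, rfl⟩
      rw [congrFun h0 j]
      exact (cl _).zero_mem
    have h3 := rk_mono hf ((sub_cl_e0 hS h).trans (cl_le h2))
    omega
  · obtain ⟨j, hj⟩ := Function.ne_iff.1 h0
    have h3 := rk_mono (hf.insert _) ((sub_cl_e0 hS h).trans (cl_le (range_sub hj)))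
    have h4 := rk_insert_le hf ((z ∘ S.e0) j)
    omega

end Vale.Agent.P292
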