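import Vale.Agent.P292.B.Om
import Vale.Agent.P276R.F.Dim

/-! P292 B/Red (auxiliary names start with `bred_`; see `notes/P292.md`).

Places. `fdim_red` reduces polynomial expressions. `exists_resf`: the residue field of `O`, see
`place_of_subring` in `P276/K/Plc.lean` (same proof without algebraic closedness; `Ov.alg`).
`om_red`: `hS.inv` at `z'`; `q (z)` reduces to `q (z') ≠ 0`; `om_inv` on both sides. `sat`: `exists_resf`,
the residue `z'` of `z` is a nonzero point (`red_on`), `hS.inv` at `z'`, `q (z)` is a unit of `O`.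
`om_int`: `sat`, `om_pm`. -/

open Polynomial Set Matrix

noncomputable section

namespace Vale.Agent.P292

open Vale.Agent.P271 Vale.Agent.P276

variable {K : Type} [Field K] [Algebra ℂ K] {N n m : ℕ} {t : Fin (N + 1) → K} {S : Cn K N}
  {W : Type} [Field W] [Algebra ℂ W]

variable {W' κ : Type} [Field W'] [Algebra ℂ W'] [Field κ] [Algebra ℂ κ] {z v v' δ : Fin S.M → W}
  {O : ValuationSubring W}

theorem bred_mul {P : Place ℂ W κ} {x x' : W} {y y' : κ} (h : P.Red x y) (h' : P.Red x' y') :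
    P.Red (x * x') (y * y') := by
  obtain ⟨h1, e1⟩ := h
  obtain ⟨h2, e2⟩ := h'
  exact ⟨mul_mem h1 h2, by rw [← e1, ← e2, ← map_mul]; rfl⟩

theorem bred_add {P : Place ℂ W κ} {x x' : W} {y y' : κ} (h : P.Red x y) (h' : P.Red x' y') :
    P.Red (x + x') (y + y') := by
  obtain ⟨h1, e1⟩ := h
  obtain ⟨h2, e2⟩ := h'
  exact ⟨add_mem h1 h2, by rw [← e1, ← e2, ← map_add]; rfl⟩

theorem bred_zero (P : Place ℂ W κ) : P.Red 0 0 := ⟨zero_mem _, map_zero P.r⟩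

theorem bred_eq {P : Place ℂ W κ} {x : W} {y : κ} (h : P.Red x y) (h0 : x = 0) : y = 0 := by
  subst h0
  obtain ⟨h1, e1⟩ := h
  rw [← e1]
  exact map_zero P.r

theorem bred_sum {P : Place ℂ W κ} {α : Type} (T : Finset α) {u : α → W} {u' : α → κ}
    (h : ∀ a, P.Red (u a) (u' a)) : P.Red (∑ a ∈ T, u a) (∑ a ∈ T, u' a) := by
  classical
  induction T using Finset.induction_on with
  | empty => simpa using bred_zero P
  | insert a T ha ih =>
    rw [Finset.sum_insert ha, Finset.sum_insert ha]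
    exact bred_add (h a) ih

theorem bred_val {P : Place ℂ W κ} {x : W} {y : κ} (h : P.Red x y) (h0 : y ≠ 0) :
    P.O.valuation x = 1 := by
  obtain ⟨h1, e1⟩ := h
  refine le_antisymm ((P.O.valuation_le_one_iff x).2 h1) (not_lt.1 fun hlt => h0 ?_)
  rw [← e1]
  exact (P.ker ⟨x, h1⟩).2 hlt

theorem bred_ne {P : Place ℂ W κ} {x : W} {y : κ} (h : P.Red x y) (h0 : y ≠ 0) : x ≠ 0 :=
  fun e => h0 (bred_eq h e)

theorem bred_inv {P : Place ℂ W κ} {x : W} {y : κ} (h : P.Red x y) (h0 : y ≠ 0) :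
    P.Red x⁻¹ y⁻¹ := by
  have hm : x⁻¹ ∈ P.O := by
    rw [← P.O.valuation_le_one_iff, map_inv₀, bred_val h h0, inv_one]
  obtain ⟨h1, e1⟩ := bred_mul h (⟨hm, rfl⟩ : P.Red x⁻¹ (P.r ⟨x⁻¹, hm⟩))
  have e2 : (⟨x * x⁻¹, h1⟩ : P.O) = 1 := Subtype.ext (mul_inv_cancel₀ (bred_ne h h0))
  rw [e2, map_one] at e1
  exact ⟨hm, eq_inv_of_mul_eq_one_right e1.symm⟩

theorem bred_mv {P : Place ℂ W κ} {M : ℕ} {z v : Fin M → W} {z' w : Fin M → κ} (hr : P.RedV z z')
    (hv : P.RedV v w) (a : Matrix (Fin M) (Fin M) (MvPolynomial (Fin M) ℂ)) :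
    P.RedV (a.map (MvPolynomial.aeval z) *ᵥ v) (a.map (MvPolynomial.aeval z') *ᵥ w) :=
  fun i => bred_sum Finset.univ fun j => bred_mul (fdim_red hr (a i j)) (hv j)

theorem bred_z0 {P : Place ℂ W κ} {M : ℕ} {z : Fin M → W} {z' : Fin M → κ} (hr : P.RedV z z')
    (h0 : z' ≠ 0) : z ≠ 0 := by
  obtain ⟨j, hj⟩ := Function.ne_iff.1 h0
  exact Function.ne_iff.2 ⟨j, bred_ne (hr j) hj⟩

theorem exists_resf (hO : Ov ∅ O) :
    ∃ (κ : Type) (_ : Field κ) (_ : Algebra ℂ κ) (P : Place ℂ W κ), P.O = O := by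
  let i0 : Algebra ℂ (IsLocalRing.ResidueField O) :=
    ((IsLocalRing.residue O).comp ((algebraMap ℂ W).codRestrict O hO.alg)).toAlgebra
  exact ⟨IsLocalRing.ResidueField O, inferInstance, i0,
    ⟨O, IsLocalRing.residue O, IsLocalRing.residue_surjective,
      fun x => (IsLocalRing.residue_eq_zero_iff x).trans (O.valuation_lt_one_iff x), hO.alg,
      fun _ => rfl⟩, rfl⟩

theorem red_on (P : Place ℂ W κ) (h : S.On z) {z' : Fin S.M → κ} (hr : P.RedV z z') : S.On z' := by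
  intro k Q hQ h0
  exact bred_eq (fdim_red hr Q) (h k Q hQ h0)

theorem red_tan (P : Place ℂ W κ) (h : S.Tan z v) {z' w : Fin S.M → κ} (hr : P.RedV z z')
    (hv : P.RedV v w) : S.Tan z' w := by
  intro k Q hQ h0
  exact bred_eq (bred_sum Finset.univ fun i => bred_mul (fdim_red hr _) (hv i)) (h k Q hQ h0)

theorem om_red (hS : S.Ok t n m) (P : Place ℂ W κ) (h : S.On z) (hv : S.Tan z v)
    (hv' : S.Tan z v') {z' w w' : Fin S.M → κ} (hr : P.RedV z z') (h0 : z' ≠ 0) (h1 : P.RedV v w)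
    (h2 : P.RedV v' w') : P.Red (S.om z v v') (S.om z' w w') := by
  have hz' := red_on P h hr
  obtain ⟨q, a, hq, ha⟩ := hS.inv κ z' hz' h0
  have hq' := fdim_red hr q
  rw [om_inv hS h (bred_z0 hr h0) hv (bred_ne hq' hq) (ha W z v' h hv'),
    om_inv hS hz' h0 (red_tan P hv hr h1) hq (ha κ z' w' hz' (red_tan P hv' hr h2)),
    div_eq_mul_inv, div_eq_mul_inv]
  exact bred_mul (bred_sum Finset.univ fun i => bred_mul (h1 i) (bred_mv hr h2 a i))
    (bred_inv hq' hq)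

theorem sat (hS : S.Ok t n m) (hO : Ov ∅ O) (h : S.On z) (hp : PV O z) (hv : S.Tan z v)
    (h1 : ∀ i, v i ∈ O) : ∃ ξ, (∀ i, ξ i ∈ O) ∧ S.pm z *ᵥ ξ = v := by
  obtain ⟨κ, i1, i2, P, rfl⟩ := exists_resf hO
  have hr : P.RedV z fun i => P.r ⟨z i, hp.1 i⟩ := fun i => ⟨hp.1 i, rfl⟩
  have hw : P.RedV v fun i => P.r ⟨v i, h1 i⟩ := fun i => ⟨h1 i, rfl⟩
  have h0 : (fun i => P.r ⟨z i, hp.1 i⟩) ≠ 0 := by
    obtain ⟨j, hj⟩ := hp.2
    refine Function.ne_iff.2 ⟨j, fun e => ?_⟩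
    exact ((P.ker ⟨z j, hp.1 j⟩).1 e).ne hj
  obtain ⟨q, a, hq, ha⟩ := hS.inv κ _ (red_on P h hr) h0
  have hq' := fdim_red hr q
  refine ⟨(MvPolynomial.aeval z q)⁻¹ • (a.map (MvPolynomial.aeval z) *ᵥ v), fun i => ?_, ?_⟩
  · exact mul_mem (bred_inv hq' hq).1 (bred_mv hr hw a i).1
  · rw [Matrix.mulVec_smul, ha W z v h hv, smul_smul, inv_mul_cancel₀ (bred_ne hq' hq), one_smul]

theorem om_int (hS : S.Ok t n m) (hO : Ov ∅ O) (h : S.On z) (hp : PV O z) (hv : S.Tan z v)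
    (hv' : S.Tan z v') (h1 : ∀ i, v i ∈ O) (h2 : ∀ i, v' i ∈ O) : S.om z v v' ∈ O := by
  obtain ⟨ξ, hξ, rfl⟩ := sat hS hO h hp hv' h2
  have h0 : z ≠ 0 := by
    obtain ⟨j, hj⟩ := hp.2
    refine Function.ne_iff.2 ⟨j, fun e => ?_⟩
    rw [e, Pi.zero_apply, map_zero] at hj
    exact zero_ne_one hj
  rw [om_pm hS h h0 hv]
  exact sum_mem fun i _ => mul_mem (h1 i) (hξ i)

end Vale.Agent.P292
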