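import Vale.Agent.P292.B.Hom

/-! P292 B/Ring (auxiliary names start with `bring_`; see `notes/P292.md`).

`on0`, `inK`: `MvPolynomial.rename S.e0 P` is weighted homogeneous of weight `d * (m * (n + 1))`
(`hS.we0`) and vanishes at `S.c` (`hS.ce0`, homogeneity); chain rule
`∑ i, aeval z (pderiv i (rename e P)) * δ i = ∑ j, aeval (z ∘ e) (pderiv j P) * δ (e j)` by induction
on `P`. `tan_pm`: `pm z *ᵥ ξ = - ∑ ξ j • row j` (`pm_alt`), rows lie in the submodule `S.TanS z`. -/

open Polynomial Set Matrix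

noncomputable section

namespace Vale.Agent.P292

open Vale.Agent.P271 Vale.Agent.P276

variable {K : Type} [Field K] [Algebra ℂ K] {N n m : ℕ} {t : Fin (N + 1) → K} {S : Cn K N}
  {W : Type} [Field W] [Algebra ℂ W]

variable {R R' : Type} [CommRing R] [Algebra ℂ R] [CommRing R'] [Algebra ℂ R'] {z δ : Fin S.M → R}

theorem bring_wh (hS : S.Ok t n m) {Q : MvPolynomial (Fin (N + 1)) ℂ} {e : ℕ}
    (hQ : Q.IsHomogeneous e) :
    (MvPolynomial.rename S.e0 Q).IsWeightedHomogeneous S.w (e * (m * (n + 1))) := by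
  rw [← Q.support_sum_monomial_coeff, map_sum]
  refine MvPolynomial.IsWeightedHomogeneous.sum _ _ _ fun s hs => ?_
  rw [MvPolynomial.rename_monomial]
  refine MvPolynomial.isWeightedHomogeneous_monomial _ _ _ ?_
  rw [Finsupp.weight_apply, Finsupp.sum_mapDomain_index (h := fun i (c : ℕ) => c • S.w i)
    (fun _ => zero_smul _ _) (fun _ _ _ => add_smul _ _ _), hQ.degree_eq_sum_deg_support hs,
    Finsupp.sum, Finset.sum_mul]
  exact Finset.sum_congr rfl fun j _ => by rw [hS.we0, smul_eq_mul]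

theorem bring_zero (hS : S.Ok t n m) {Q : MvPolynomial (Fin (N + 1)) ℂ} {e : ℕ}
    (hQ : Q.IsHomogeneous e) (h0 : MvPolynomial.aeval t Q = 0) :
    MvPolynomial.aeval S.c (MvPolynomial.rename S.e0 Q) = 0 := by
  have e1 : S.c ∘ S.e0 = fun j => S.u * t j := funext fun j => hS.ce0 j
  rw [MvPolynomial.aeval_rename, e1, aeval_smul_hom hQ, h0, mul_zero]

theorem bring_X {σ : Type} [Fintype σ] (z δ : σ → R) (i : σ) :
    ∑ j, MvPolynomial.aeval z (MvPolynomial.pderiv j (MvPolynomial.X i : MvPolynomial σ ℂ)) * δ j =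
      δ i := by
  rw [Finset.sum_eq_single i
    (fun j _ hj => by rw [MvPolynomial.pderiv_X_of_ne hj.symm, map_zero, zero_mul])
    (fun hi => (hi (Finset.mem_univ i)).elim), MvPolynomial.pderiv_X_self, map_one, one_mul]

theorem bring_mul {σ : Type} [Fintype σ] (z δ : σ → R) (P Q : MvPolynomial σ ℂ) :
    ∑ j, MvPolynomial.aeval z (MvPolynomial.pderiv j (P * Q)) * δ j =
      MvPolynomial.aeval z P * ∑ j, MvPolynomial.aeval z (MvPolynomial.pderiv j Q) * δ j +
      MvPolynomial.aeval z Q * ∑ j, MvPolynomial.aeval z (MvPolynomial.pderiv j P) * δ j := by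
  simp only [Derivation.leibniz, smul_eq_mul, map_add, map_mul, add_mul,
    Finset.sum_add_distrib, Finset.mul_sum, mul_assoc]

theorem bring_chain {σ τ : Type} [Fintype σ] [Fintype τ] (z δ : σ → R) (e : τ → σ)
    (Q : MvPolynomial τ ℂ) :
    ∑ i, MvPolynomial.aeval z (MvPolynomial.pderiv i (MvPolynomial.rename e Q)) * δ i =
      ∑ j, MvPolynomial.aeval (z ∘ e) (MvPolynomial.pderiv j Q) * (δ ∘ e) j := by
  induction Q using MvPolynomial.induction_on with
  | C a => simp
  | add p q hp hq =>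
    simp only [map_add, add_mul, Finset.sum_add_distrib] at hp hq ⊢
    rw [hp, hq]
  | mul_X p i hp =>
    rw [map_mul, MvPolynomial.rename_X, bring_mul, bring_mul, hp, bring_X, bring_X,
      MvPolynomial.aeval_X, MvPolynomial.aeval_X, MvPolynomial.aeval_rename]
    rfl

theorem Cn.On.on0 (hS : S.Ok t n m) (h : S.On z) : On0 t (z ∘ S.e0) := by
  intro k P hP h0
  rw [← MvPolynomial.aeval_rename]
  exact h _ _ (bring_wh hS hP) (bring_zero hS hP h0)

theorem Cn.On.sc (h : S.On z) (ρ : R) : S.On (S.sc ρ z) := by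
  intro k P hP h0
  rw [aeval_sc hP, h k P hP h0, mul_zero]

theorem Cn.On.map (h : S.On z) (f : R →ₐ[ℂ] R') : S.On fun i => f (z i) := by
  intro k P hP h0
  rw [← MvPolynomial.comp_aeval_apply, h k P hP h0, map_zero]

theorem Cn.Tan.map (h : S.Tan z δ) (f : R →ₐ[ℂ] R') : S.Tan (fun i => f (z i)) fun i => f (δ i) := by
  intro k P hP h0
  have h1 := congrArg f (h k P hP h0)
  rw [map_sum, map_zero] at h1
  refine Eq.trans (Finset.sum_congr rfl fun i _ => ?_) h1
  rw [map_mul, MvPolynomial.comp_aeval_apply]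

theorem Cn.On.eu (h : S.On z) : S.Tan z (S.eu z) := by
  intro k P hP h0
  rw [euler hP, h k P hP h0, mul_zero]

theorem Cn.On.der (h : S.On z) (D : Derivation ℂ R R) : S.Tan z fun i => D (z i) := by
  intro k P hP h0
  rw [← der_aeval, h k P hP h0, map_zero]

theorem Cn.Tan.sc (h : S.Tan z δ) (ρ : R) : S.Tan (S.sc ρ z) (S.sc ρ δ) := by
  intro k P hP h0
  have h1 := congrArg (ρ ^ k * ·) (h k P hP h0)
  simp only [mul_zero, Finset.mul_sum] at h1
  refine Eq.trans (Finset.sum_congr rfl fun i _ => ?_) h1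
  rw [← mul_assoc, ← pder_sc hP ρ z i]
  change _ * (ρ ^ S.w i * δ i) = _
  ring

theorem Cn.Tan.inK (hS : S.Ok t n m) (h : S.Tan z δ) : InK t (z ∘ S.e0) (δ ∘ S.e0) := by
  intro k P hP h0
  exact (bring_chain z δ S.e0 P).symm.trans (h _ _ (bring_wh hS hP) (bring_zero hS hP h0))

theorem tan_pm (hS : S.Ok t n m) (h : S.On z) (ξ : Fin S.M → R) : S.Tan z (S.pm z *ᵥ ξ) := by
  have e : S.pm z *ᵥ ξ = ∑ j, (-ξ j) • S.pm z j := by
    funext i
    rw [Finset.sum_apply]
    change ∑ j, S.pm z i j * ξ j = _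
    refine Finset.sum_congr rfl fun j _ => ?_
    rw [Pi.smul_apply, smul_eq_mul, pm_alt hS z i j]
    ring
  rw [e]
  exact (S.TanS z).sum_mem fun j _ => (S.TanS z).smul_mem _ (hS.tanp R z h j)

end Vale.Agent.P292
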