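import Vale.Agent.P292.B.Dv

/-! P292 B/WtSp (auxiliary names start with `bwtsp_`; see `notes/P292.md`).

`E = dv (eu x)` kills `cl Y`, and a monomial `c * x ^ α * f ^ β` is an eigenvector of `E` with eigenvalue
its weight. If `P (x, f) = 0`, the weighted components `P d (x, f)` are eigenvectors for different
eigenvalues with sum zero, so each vanishes (`bwtsp_eig`: induction on the finite set, apply
`E - d`); and `P (sc ρ x, ρ ^ k f) = ∑ ρ ^ d P d (x, f)`. -/

open Polynomial Set Matrix

noncomputable section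

namespace Vale.Agent.P292

open Vale.Agent.P271 Vale.Agent.P276

variable {K : Type} [Field K] [Algebra ℂ K] {N n m : ℕ} {t : Fin (N + 1) → K} {S : Cn K N}
  {W : Type} [Field W] [Algebra ℂ W]

variable {Y Y' : Set W} {x δ : Fin S.M → W} {f g h : W} {k l : ℕ}

theorem bwtsp_eig (E : Derivation ℂ W W) (s : Finset ℕ) (a : ℕ → W)
    (h : ∀ d ∈ s, E (a d) = d * a d) (h0 : ∑ d ∈ s, a d = 0) : ∀ d ∈ s, a d = 0 := by
  haveI : CharZero W := charZero_of_injective_algebraMap (algebraMap ℂ W).injective
  induction s using Finset.induction_on generalizing a with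
  | empty => intro d hd; simp at hd
  | insert e s he ih =>
    rw [Finset.sum_insert he] at h0
    have h1 : ∑ d ∈ s, ((d : W) - e) * a d = 0 := by
      have h2 := congrArg E h0
      rw [map_add, map_sum, map_zero, h e (Finset.mem_insert_self _ _),
        Finset.sum_congr rfl fun d hd => h d (Finset.mem_insert_of_mem hd)] at h2
      simp only [sub_mul, Finset.sum_sub_distrib, ← Finset.mul_sum]
      linear_combination h2 - (e : W) * h0
    have h3 := ih (fun d => ((d : W) - e) * a d) (fun d hd => by
      rw [Derivation.leibniz, map_sub, Derivation.map_natCast, Derivation.map_natCast,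
        h d (Finset.mem_insert_of_mem hd)]
      simp only [smul_eq_mul]
      ring) h1
    have h4 : ∀ d ∈ s, a d = 0 := fun d hd => by
      refine (mul_eq_zero.1 (h3 d hd)).resolve_left fun h5 => he ?_
      have h6 : d = e := Nat.cast_injective (R := W) (sub_eq_zero.1 h5)
      exact h6 ▸ hd
    intro d hd
    rcases Finset.mem_insert.1 hd with rfl | hd
    · rwa [Finset.sum_eq_zero h4, add_zero] at h0
    · exact h4 d hd

theorem bwtsp_prod {σ : Type} (E : Derivation ℂ W W) {u : σ → W} {c : σ → ℕ}
    (hu : ∀ i, E (u i) = c i * u i) (d : σ → ℕ) (s : Finset σ) :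
    E (∏ i ∈ s, u i ^ d i) = ((∑ i ∈ s, c i * d i : ℕ) : W) * ∏ i ∈ s, u i ^ d i := by
  classical
  induction s using Finset.induction_on with
  | empty => simp
  | insert e s he ih =>
    have h1 : E (u e ^ d e) = ((c e * d e : ℕ) : W) * u e ^ d e := by
      induction d e with
      | zero => simp
      | succ j hj =>
        rw [pow_succ, Derivation.leibniz, hj, hu]
        simp only [smul_eq_mul]
        push_cast
        ring
    rw [Finset.prod_insert he, Finset.sum_insert he, Derivation.leibniz, ih, h1]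
    simp only [smul_eq_mul]
    push_cast
    ring

theorem bwtsp_gen {σ : Type} (L : IntermediateField ℂ W) (E : Derivation ℂ W W)
    (hE : ∀ a ∈ L, E a = 0) {u : σ → W} {c : σ → ℕ} (hu : ∀ i, E (u i) = c i * u i) (ρ : W) :
    Sp L u fun i => ρ ^ c i * u i := by
  classical
  intro p hp
  rw [MvPolynomial.aeval_def, MvPolynomial.eval₂_eq] at hp ⊢
  set ω : (σ →₀ ℕ) → ℕ := fun d => ∑ i ∈ d.support, c i * d i with hω
  set T : (σ →₀ ℕ) → W := fun d =>
    algebraMap L W (p.coeff d) * ∏ i ∈ d.support, u i ^ d i with hT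
  have hET : ∀ d, E (T d) = ω d * T d := fun d => by
    have h0 : E (algebraMap L W (p.coeff d)) = 0 := hE _ (p.coeff d).2
    simp only [hT, hω]
    rw [Derivation.leibniz, h0, bwtsp_prod E hu]
    simp only [smul_eq_mul]
    ring
  have hm : ∀ d ∈ p.support, ω d ∈ p.support.image ω := fun d hd => Finset.mem_image_of_mem ω hd
  have h1 := bwtsp_eig E (p.support.image ω) (fun e => ∑ d ∈ p.support with ω d = e, T d)
    (fun e _ => by
      rw [map_sum, Finset.mul_sum]
      refine Finset.sum_congr rfl fun d hd => ?_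
      rw [hET, (Finset.mem_filter.1 hd).2])
    (by rw [Finset.sum_fiberwise_of_maps_to hm]; exact hp)
  have h2 : ∀ d : σ →₀ ℕ, algebraMap L W (p.coeff d) * ∏ i ∈ d.support, (ρ ^ c i * u i) ^ d i =
      ρ ^ ω d * T d := fun d => by
    simp only [hT, hω, mul_pow, Finset.prod_mul_distrib, ← pow_mul, Finset.prod_pow_eq_pow_sum]
    ring
  rw [Finset.sum_congr rfl fun d _ => h2 d, ← Finset.sum_fiberwise_of_maps_to hm]
  refine Finset.sum_eq_zero fun e he => ?_
  rw [Finset.sum_congr rfl (g := fun d => ρ ^ e * T d) fun d hd => by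
    rw [(Finset.mem_filter.1 hd).2], ← Finset.mul_sum, h1 e he, mul_zero]

/-- Weighted functions follow the torus action. -/
theorem wt_sp [IsAlgClosed W] (hS : S.Ok t n m) (hx : S.GenO n Y x) {τ : Type} [Fintype τ]
    {f : τ → W} {k : τ → ℕ} (hf : ∀ i, S.Wt Y x (k i) (f i)) (ρ : W) :
    Sp (cl Y) (Sum.elim x f) (Sum.elim (S.sc ρ x) fun i => ρ ^ k i * f i) := by
  obtain ⟨h1, h2⟩ := dv_spec hS hx hx.2.1.eu
  have h3 := bwtsp_gen (cl Y) (S.dv Y x (S.eu x)) h1 (u := Sum.elim x f) (c := Sum.elim S.w k)
    (by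
      rintro (i | i)
      · exact h2 i
      · exact (hf i).2) ρ
  have h4 : (Sum.elim (S.sc ρ x) fun i => ρ ^ k i * f i) =
      fun i => ρ ^ Sum.elim S.w k i * Sum.elim x f i := by
    funext i
    rcases i with i | i <;> rfl
  rw [h4]
  exact h3

end Vale.Agent.P292
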