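import Vale.Agent.P292.B.Hom
import Vale.Agent.P292.B.Ring
import Vale.Agent.P292.B.Om
import Vale.Agent.P292.B.Form
import Vale.Agent.P292.B.Red
import Vale.Agent.P292.B.Pv
import Vale.Agent.P292.B.Clo
import Vale.Agent.P292.B.Eu
import Vale.Agent.P292.B.Bas
import Vale.Agent.P292.B.Emb
import Vale.Agent.P292.B.Aut
import Vale.Agent.P292.B.Disj
import Vale.Agent.P292.B.Glue
import Vale.Agent.P292.B.Gen
import Vale.Agent.P292.B.GenSp
import Vale.Agent.P292.B.Dv
import Vale.Agent.P292.B.Map
import Vale.Agent.P292.B.Jac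
import Vale.Agent.P292.B.WtSp

/-! P292 block B: basics (imports only). See `notes/P292.md`. -/
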